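import Vale.Agent.P155B.Def2

/-!
# P155: Le Jan's identity (definitions)
-/

namespace Vale.Agent.P155.LJ

open MeasureTheory Set Vale.Agent.P155.Q1 Vale.Agent.P155.BL
open scoped NNReal ENNReal

noncomputable section

/-- the heat kernel of Brownian motion killed outside `D` -/
def qk (W : Measure Pa) (D : Set ℂ) (t : ℝ) (x y : ℂ) : ℝ≥0∞ := Wb W t x y {γ | range γ ⊆ D}

/-- the Green kernel of Brownian motion killed outside `D` -/
def Gk (W : Measure Pa) (D : Set ℂ) (x y : ℂ) : ℝ≥0∞ := ∫⁻ t in Ioi (0 : ℝ), qk W D t x y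

/-- the Green matrix of a family of nonnegative functions -/
def gm {ι : Type} (W : Measure Pa) (D : Set ℂ) (φ : ι → ℂ → ℝ) : Matrix ι ι ℝ := fun i j =>
  (∫⁻ x, ∫⁻ y, ENNReal.ofReal (φ i x) * Gk W D x y * ENNReal.ofReal (φ j y)).toReal

/-- the integral of the potential `u` along a loop with a duration -/
def occL (u : ℂ → ℝ) (q : ℝ × CL) : ℝ := q.1 * ∫ a : S1, u (q.2 a)

/-- loops in `V` which leave `V'`, weighted by the probability to be killed by `l u` -/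
def lam (W : Measure Pa) (V V' : Set ℂ) (u : ℂ → ℝ) (l : ℝ) : ℝ :=
  (∫⁻ q in {q : ℝ × CL | range q.2 ⊆ V ∧ ¬ range q.2 ⊆ V'},
    ENNReal.ofReal (1 - Real.exp (-l * occL u q)) ∂loopT W).toReal

/-- `∑ j, φ n j x * φ n j y` approximates `u x` times the Dirac mass on the diagonal -/
structure AI (u : ℂ → ℝ) (N : ℕ → ℕ) (φ : ∀ n, Fin (N n) → ℂ → ℝ) : Prop where
  cont : Continuous u
  cpt : HasCompactSupport u
  contφ : ∀ n j, Continuous (φ n j)
  nonneg : ∀ n j x, 0 ≤ φ n j x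
  supp : ∀ n j x, φ n j x ≠ 0 → u x ≠ 0
  small : ∀ n j x y, φ n j x ≠ 0 → φ n j y ≠ 0 → dist x y ≤ 1 / (n + 1 : ℝ)
  sum : ∀ n x, ∑ j, φ n j x * ∫ y, φ n j y = u x

end

end Vale.Agent.P155.LJ
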