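import Vale.Agent.P155L.Defs

/-!
# P155: approximate identities exist
-/

namespace Vale.Agent.P155.LJ

open MeasureTheory Set Metric Function
open scoped ContDiff Manifold

theorem ai_step {u : ℂ → ℝ} (hu : ContDiff ℝ ∞ u) (hc : HasCompactSupport u) (h0 : ∀ x, 0 ≤ u x)
    {r : ℝ} (hr : 0 < r) : ∃ (N : ℕ) (φ : Fin N → ℂ → ℝ), (∀ j, ContDiff ℝ ∞ (φ j)) ∧
      (∀ j x, 0 ≤ φ j x) ∧ (∀ j x, φ j x ≠ 0 → u x ≠ 0) ∧
      (∀ j x y, φ j x ≠ 0 → φ j y ≠ 0 → dist x y ≤ r) ∧ ∀ x, ∑ j, φ j x * ∫ y, φ j y = u x := by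
  obtain ⟨t, -, ht, hs⟩ := finite_cover_balls_of_compact hc.isCompact (half_pos hr)
  obtain ⟨N, c, -, rfl⟩ := ht.fin_param
  obtain ⟨f, hf⟩ := SmoothPartitionOfUnity.exists_isSubordinate (I := 𝓘(ℝ, ℂ)) (isClosed_tsupport u)
    (fun j => ball (c j) (r / 2)) (fun _ => isOpen_ball) (by rwa [biUnion_range] at hs)
  have s (j) : ContDiff ℝ ∞ fun x => u x * f j x := hu.mul (f j).contMDiff.contDiff
  have p (j x) : 0 ≤ u x * f j x := mul_nonneg (h0 x) (f.nonneg j x)
  have b (j x) (h : u x * f j x / √(∫ y, u y * f j y) ≠ 0) : u x ≠ 0 ∧ x ∈ ball (c j) (r / 2) := by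
    have := mul_ne_zero_iff.1 (div_ne_zero_iff.1 h).1
    exact ⟨this.1, hf j (subset_tsupport _ this.2)⟩
  refine ⟨N, fun j x => u x * f j x / √(∫ y, u y * f j y), fun j => (s j).div_const _,
    fun j x => div_nonneg (p j x) (Real.sqrt_nonneg _), fun j x h => (b j x h).1,
    fun j x y hx hy => ?_, fun x => ?_⟩
  · linarith [dist_triangle_right x y (c j), mem_ball.1 (b j x hx).2, mem_ball.1 (b j y hy).2]
  · have e (j) : u x * f j x / √(∫ y, u y * f j y) * ∫ y, u y * f j y / √(∫ y, u y * f j y) =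
        u x * f j x := by
      rw [integral_div]
      by_cases h : u x * f j x = 0
      · rw [h, zero_div, zero_mul]
      · have := (s j).continuous.integral_pos_of_hasCompactSupport_nonneg_nonzero (μ := volume)
          hc.mul_right (p j) h
        rw [div_mul_div_comm, Real.mul_self_sqrt this.le, mul_div_assoc, div_self this.ne', mul_one]
    simp only [e, ← Finset.mul_sum]
    by_cases h : u x = 0
    · rw [h, zero_mul]
    · rw [← finsum_eq_sum_of_fintype, f.sum_eq_one (subset_tsupport _ h), mul_one]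

/-- approximate identities for a potential with prescribed support -/
theorem exists_ai {O : Set ℂ} (hO : IsOpen O) (hb : Bornology.IsBounded O) :
    ∃ (u : ℂ → ℝ) (N : ℕ → ℕ) (φ : ∀ n, Fin (N n) → ℂ → ℝ), Function.support u = O ∧ AI u N φ ∧
      ∀ n j, ContDiff ℝ ((⊤ : ℕ∞) : WithTop ℕ∞) (φ n j) ∧ HasCompactSupport (φ n j) ∧
        tsupport (φ n j) ⊆ closure O := by
  obtain ⟨u, h1, h2, h3⟩ := hO.exists_contDiff_support_eq (n := ⊤)
  have hc : HasCompactSupport u := by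
    rw [HasCompactSupport, tsupport, h1]
    exact hb.isCompact_closure
  choose N φ a1 a2 a3 a4 a5 using fun n : ℕ => ai_step h2 hc (fun x => (h3 ⟨x, rfl⟩).1)
    (Nat.one_div_pos_of_nat (n := n))
  refine ⟨u, N, φ, h1, ⟨h2.continuous, hc, fun n j => (a1 n j).continuous, a2, a3, a4, a5⟩,
    fun n j => ⟨a1 n j, hc.mono (a3 n j), closure_mono (h1 ▸ a3 n j)⟩⟩

end Vale.Agent.P155.LJ
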