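import Vale.Agent.P155L.Ker

/-!
# P155: approximations of a multiplication operator; matrices of finite rank kernels
-/

namespace Vale.Agent.P155.LJ

open MeasureTheory Set Filter Topology
open scoped ENNReal NNReal

noncomputable section

/-- kernels concentrating on the diagonal, with both marginals `U` -/
structure AK (U : ℂ → ℝ≥0∞) (P : ℕ → ℂ × ℂ → ℝ≥0∞) : Prop where
  mU : Measurable U
  meas : ∀ n, Measurable (P n)
  left : ∀ n y, ∫⁻ z, P n (z, y) = U y
  right : ∀ n z, ∫⁻ y, P n (z, y) = U z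
  small : ∀ n p, P n p ≠ 0 → dist p.1 p.2 ≤ 1 / (n + 1 : ℝ)

variable {K : ℂ × ℂ → ℝ≥0∞} {U : ℂ → ℝ≥0∞} {P : ℕ → ℂ × ℂ → ℝ≥0∞} {c : ℝ≥0∞}

theorem sd_mul_right (a b c : ℝ≥0∞) : sd (a * c) (b * c) ≤ sd a b * c := by
  refine sd_le.2 ⟨?_, ?_⟩ <;> rw [← add_mul] <;> gcongr
  exacts [le_sd _ _, le_sd' _ _]

theorem sd_comm (a b : ℝ≥0∞) : sd a b = sd b a := max_comm _ _

theorem sd_ofReal (a b : ℝ) : sd (ENNReal.ofReal a) (ENNReal.ofReal b) ≤ ‖a - b‖ₑ := by
  rw [Real.enorm_eq_ofReal_abs]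
  refine sd_le.2 ⟨le_trans (ENNReal.ofReal_le_ofReal ?_) ENNReal.ofReal_add_le,
    le_trans (ENNReal.ofReal_le_ofReal ?_) ENNReal.ofReal_add_le⟩
  · linarith [le_abs_self (a - b)]
  · linarith [neg_abs_le (a - b)]

theorem AK.schur (h : AK U P) (hc : ∀ x, U x ≤ c) (mK : Measurable K) (n : ℕ) :
    N2 (cmp K (P n)) ≤ c ^ 2 * N2 K := by
  have := h.meas n
  rw [N2_eq (by fun_prop), N2_eq mK, ← lintegral_const_mul _ (by fun_prop)]
  refine lintegral_mono fun x => ?_
  have k : ∀ y, cmp K (P n) (x, y) ^ 2 ≤ c * ∫⁻ z, K (x, z) ^ 2 * P n (z, y) := fun y => by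
    have := cs (μ := volume.withDensity fun z => P n (z, y)) (f := fun z => K (x, z))
      (g := fun _ => 1) (by fun_prop) (by fun_prop)
    simp only [lintegral_withDensity_eq_lintegral_mul _ (f := fun z => P n (z, y)) (by fun_prop)
      (g := fun z => K (x, z) * 1) (by fun_prop), lintegral_withDensity_eq_lintegral_mul _
      (f := fun z => P n (z, y)) (by fun_prop) (g := fun z => K (x, z) ^ 2) (by fun_prop),
      lintegral_withDensity_eq_lintegral_mul _ (f := fun z => P n (z, y)) (by fun_prop)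
      (g := fun _ => (1 : ℝ≥0∞) ^ 2) (by fun_prop)] at this
    simp only [Pi.mul_apply, mul_one, one_pow, h.left] at this
    simp only [mul_comm (P n _)] at this
    exact this.trans (by rw [mul_comm]; gcongr; exact hc y)
  refine (lintegral_mono k).trans ?_
  rw [lintegral_const_mul _ (by fun_prop), lintegral_lintegral_swap (by fun_prop), pow_two c,
    mul_assoc, ← lintegral_const_mul c (f := fun z => K (x, z) ^ 2) (by fun_prop)]
  gcongr with z
  rw [lintegral_const_mul _ (by fun_prop), h.right, mul_comm]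
  gcongr
  exact hc z

theorem N2_mul (hc : ∀ x, U x ≤ c) (mK : Measurable K) :
    (N2 fun p => K p * U p.2) ≤ c ^ 2 * N2 K := by
  rw [N2, N2, ← lintegral_const_mul _ (by fun_prop)]
  refine lintegral_mono fun p => ?_
  rw [← mul_pow, mul_comm c]
  gcongr
  exact hc _

theorem dense (mK : Measurable K) (fK : N2 K ≠ ∞) {ε : ℝ≥0∞} (hε : ε ≠ 0) :
    ∃ g : ℂ × ℂ → ℝ, Continuous g ∧ HasCompactSupport g ∧
      (N2 fun p => sd (K p) (ENNReal.ofReal (g p))) ≤ ε := by
  have e : ∀ x : ℝ≥0∞, (x ^ (1 / 2 : ℝ)) ^ 2 = x := fun x => by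
    rw [← ENNReal.rpow_natCast, ← ENNReal.rpow_mul]; norm_num
  have e2 : ∀ f : ℂ × ℂ → ℝ, eLpNorm f 2 volume ^ 2 = ∫⁻ p, ‖f p‖ₑ ^ 2 := fun f => by
    rw [eLpNorm_eq_lintegral_rpow_enorm_toReal (by norm_num) (by norm_num)]
    simp only [ENNReal.toReal_ofNat, e, ENNReal.rpow_two]
  have m : MemLp (fun p => (K p).toReal) 2 volume := by
    refine ⟨Measurable.aestronglyMeasurable (by fun_prop), lt_top_iff_ne_top.2 fun h => fK ?_⟩
    have := e2 fun p => (K p).toReal
    rw [h, ENNReal.top_pow two_ne_zero] at this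
    refine top_le_iff.1 (this.le.trans (lintegral_mono fun p => ?_))
    rw [Real.enorm_eq_ofReal ENNReal.toReal_nonneg]
    gcongr
    exact ENNReal.ofReal_toReal_le
  obtain ⟨g, h1, h2, h3, -⟩ := m.exists_hasCompactSupport_eLpNorm_sub_le (by norm_num)
    (ε := ε ^ (1 / 2 : ℝ)) (ENNReal.rpow_pos_of_nonneg (pos_iff_ne_zero.2 hε) (by norm_num)).ne'
  refine ⟨g, h3, h1, ?_⟩
  rw [← e ε]
  refine le_trans ?_ (pow_le_pow_left' h2 2)
  rw [e2]
  refine lintegral_mono_ae ?_
  filter_upwards [ae_lt_top (by fun_prop) fK] with p hp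
  have : K p ≠ ∞ := fun h => by simp [h] at hp
  gcongr
  conv_lhs => rw [← ENNReal.ofReal_toReal this]
  exact sd_ofReal _ _

theorem AK.cv_cont (h : AK U P) (fU : ∫⁻ y, U y ^ 2 ≠ ∞) {g : ℂ × ℂ → ℝ} (hg : Continuous g)
    (hs : HasCompactSupport g) : Cv (fun n => cmp (fun p => ENNReal.ofReal (g p)) (P n))
      fun p => ENNReal.ofReal (g p) * U p.2 := by
  have mU := h.mU
  set S := Prod.fst '' tsupport g
  have cS : IsCompact S := hs.isCompact.image continuous_fst
  set B := volume S * ∫⁻ y, U y ^ 2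
  have fB : B ≠ ∞ := ENNReal.mul_ne_top cS.measure_lt_top.ne fU
  refine ENNReal.tendsto_nhds_zero.2 fun ε hε => ?_
  obtain ⟨r, r0, hr⟩ := ENNReal.exists_nnreal_pos_mul_lt fB hε.ne'
  obtain ⟨δ, δ0, hδ⟩ := Metric.uniformContinuous_iff.1 (hs.uniformContinuous_of_continuous hg)
    (NNReal.sqrt r) (by simpa using r0)
  filter_upwards [tendsto_one_div_add_atTop_nhds_zero_nat.eventually (gt_mem_nhds δ0)] with n hn
  have := h.meas n
  refine (N2_mono (L := fun p => S.indicator (fun _ => (NNReal.sqrt r : ℝ≥0∞)) p.1 * U p.2)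
    fun p => ?_).trans (le_trans (le_of_eq ?_) hr.le)
  · rw [← h.left n p.2, ← lintegral_const_mul _ (by fun_prop),
      ← lintegral_const_mul _ (by fun_prop)]
    refine (sd_lint (by fun_prop) (by fun_prop)).trans (lintegral_mono fun z => ?_)
    by_cases h0 : P n (z, p.2) = 0
    · simp [h0, sd]
    refine (sd_mul_right _ _ _).trans (mul_le_mul_left ((sd_ofReal _ _).trans ?_) _)
    by_cases hx : p.1 ∈ S
    · rw [indicator_of_mem hx, ← ofReal_norm, ← dist_eq_norm, ← ENNReal.ofReal_coe_nnreal]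
      refine ENNReal.ofReal_le_ofReal (hδ ?_).le
      have := h.small n _ h0
      rw [Prod.dist_eq, dist_self, max_eq_right dist_nonneg]
      exact this.trans_lt hn
    · have z0 : ∀ w, g (p.1, w) = 0 := fun w =>
        image_eq_zero_of_notMem_tsupport fun hw => hx ⟨_, hw, rfl⟩
      simp [z0 z, z0 p.2]
  · have mS := cS.measurableSet
    have : Measurable (S.indicator fun _ => (NNReal.sqrt r : ℝ≥0∞)) := measurable_const.indicator mS
    rw [N2_eq (by fun_prop)]
    simp only [mul_pow]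
    rw [lintegral_lintegral_mul (by fun_prop) (by fun_prop), ← mul_assoc]
    congr 1
    rw [← lintegral_indicator_const mS]
    refine lintegral_congr fun x => ?_
    by_cases hx : x ∈ S
    · simp only [indicator_of_mem hx]; rw [← ENNReal.coe_pow, NNReal.sq_sqrt]
    · simp [hx]

theorem AK.cv (h : AK U P) (hc : ∀ x, U x ≤ c) (fc : c ≠ ∞) (fU : ∫⁻ y, U y ^ 2 ≠ ∞)
    (mK : Measurable K) (fK : N2 K ≠ ∞) : Cv (fun n => cmp K (P n)) fun p => K p * U p.2 := by
  have mU := h.mU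
  refine ENNReal.tendsto_nhds_zero.2 fun ε hε => ?_
  obtain ⟨r, r0, hr⟩ := ENNReal.exists_nnreal_pos_mul_lt (a := 6 * c ^ 2)
    (ENNReal.mul_ne_top (by simp) (ENNReal.pow_ne_top fc)) (ENNReal.half_pos hε.ne').ne'
  obtain ⟨g, g1, g2, g3⟩ := dense mK fK (ε := r) (by simpa using r0.ne')
  have := ENNReal.Tendsto.const_mul (a := 4) (h.cv_cont fU g1 g2) (.inr (by simp))
  rw [mul_zero] at this
  filter_upwards [ENNReal.tendsto_nhds_zero.1 this _ (ENNReal.half_pos hε.ne')] with n hn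
  have := h.meas n
  set G : ℂ × ℂ → ℝ≥0∞ := fun p => ENNReal.ofReal (g p)
  have mG : Measurable G := by fun_prop
  set E : ℂ × ℂ → ℝ≥0∞ := fun p => sd (K p) (G p)
  have mE : Measurable E := by fun_prop
  refine (N2_mono (L := fun p => (cmp E (P n) p + sd (cmp G (P n) p) (G p * U p.2)) + E p * U p.2)
    fun p => ?_).trans ((N2_add (by fun_prop) (by fun_prop)).trans ?_)
  · refine (sd_tri _ (G p * U p.2) _).trans (add_le_add ((sd_tri _ (cmp G (P n) p) _).trans
      (add_le_add_left ?_ _)) ?_)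
    · exact (sd_lint (by fun_prop) (by fun_prop)).trans (lintegral_mono fun z => sd_mul_right _ _ _)
    · rw [sd_comm]; exact sd_mul_right _ _ _
  calc _ ≤ 2 * (2 * (c ^ 2 * r) + 2 * N2 fun p => sd (cmp G (P n) p) (G p * U p.2)) +
        2 * (c ^ 2 * r) := by
        gcongr
        · refine (N2_add (by fun_prop) (by fun_prop)).trans ?_
          gcongr
          exact (h.schur hc mE n).trans (by gcongr)
        · exact (N2_mul hc mE).trans (by gcongr)
    _ = r * (6 * c ^ 2) + 4 * N2 fun p => sd (cmp G (P n) p) (G p * U p.2) := by ring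
    _ ≤ ε / 2 + ε / 2 := add_le_add hr.le hn
    _ = ε := ENNReal.add_halves ε

/-! ### finite rank kernels -/

variable {ι : Type} [Fintype ι] [DecidableEq ι] {ψ : ι → ℂ → ℝ≥0∞}

/-- the kernel of a finite family -/
def pk (ψ : ι → ℂ → ℝ≥0∞) (p : ℂ × ℂ) : ℝ≥0∞ := ∑ j, ψ j p.1 * ψ j p.2
/-- the matrix of a kernel -/
def km (K : ℂ × ℂ → ℝ≥0∞) (ψ : ι → ℂ → ℝ≥0∞) : Matrix ι ι ℝ≥0∞ := fun i j =>
  ∫⁻ x, ∫⁻ y, ψ i x * K (x, y) * ψ j y

omit [DecidableEq ι] in
theorem cmp_pk (mK : Measurable K) (mψ : ∀ j, Measurable (ψ j)) (p : ℂ × ℂ) :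
    cmp K (pk ψ) p = ∑ j, (∫⁻ z, K (p.1, z) * ψ j z) * ψ j p.2 := by
  simp only [cmp, pk, Finset.mul_sum, ← mul_assoc]
  rw [lintegral_finsetSum _ fun j _ => by fun_prop]
  exact Finset.sum_congr rfl fun j _ => lintegral_mul_const _ (by fun_prop)

omit [Fintype ι] [DecidableEq ι] in
theorem km_eq (mK : Measurable K) (mψ : ∀ j, Measurable (ψ j)) (i j : ι) :
    ∫⁻ x, ψ i x * ∫⁻ z, K (x, z) * ψ j z = km K ψ i j := by
  refine lintegral_congr fun x => ?_
  simp only [mul_assoc]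
  rw [lintegral_const_mul _ (by fun_prop)]

theorem pw_pk (mK : Measurable K) (mψ : ∀ j, Measurable (ψ j)) (k : ℕ) (p : ℂ × ℂ) :
    pw (cmp K (pk ψ)) k p =
      ∑ i, ∑ j, (∫⁻ z, K (p.1, z) * ψ i z) * (km K ψ ^ k) i j * ψ j p.2 := by
  induction k generalizing p with
  | zero => simp [pw, cmp_pk mK mψ, Matrix.one_apply]
  | succ k ih =>
    have e : ∀ z, cmp K (pk ψ) (p.1, z) * pw (cmp K (pk ψ)) k (z, p.2) = ∑ a, ∑ j, ∑ i,
        (∫⁻ z, K (p.1, z) * ψ a z) *
          ((ψ a z * ∫⁻ w, K (z, w) * ψ i w) * (km K ψ ^ k) i j) * ψ j p.2 := fun z => by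
      rw [ih, cmp_pk mK mψ, Finset.sum_mul, Finset.sum_comm]
      simp only [Finset.mul_sum]
      refine Finset.sum_congr rfl fun a _ => Finset.sum_congr rfl fun j _ =>
        Finset.sum_congr rfl fun i _ => by ring
    rw [pw, cmp, lintegral_congr e, lintegral_finsetSum _ fun j _ => by fun_prop]
    refine Finset.sum_congr rfl fun a _ => ?_
    rw [lintegral_finsetSum _ fun j _ => by fun_prop]
    refine Finset.sum_congr rfl fun j _ => ?_
    rw [lintegral_finsetSum _ fun j _ => by fun_prop, pow_succ', Matrix.mul_apply, Finset.mul_sum,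
      Finset.sum_mul]
    refine Finset.sum_congr rfl fun i _ => ?_
    rw [lintegral_mul_const _ (by fun_prop), lintegral_const_mul _ (by fun_prop),
      lintegral_mul_const _ (by fun_prop), km_eq mK mψ]

theorem trp_pk (mK : Measurable K) (mψ : ∀ j, Measurable (ψ j)) (k : ℕ) :
    trp (cmp K (pk ψ)) (pw (cmp K (pk ψ)) k) = (km K ψ ^ (k + 2)).trace := by
  have m : Measurable (cmp K (pk ψ)) := measurable_cmp mK (by unfold pk; fun_prop)
  rw [trp_eq m (measurable_pw m k)]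
  change ∫⁻ x, pw (cmp K (pk ψ)) (k + 1) (x, x) = _
  rw [pow_succ' _ (k + 1)]
  simp only [pw_pk mK mψ, Matrix.trace, Matrix.diag, Matrix.mul_apply]
  rw [lintegral_finsetSum _ fun j _ => by fun_prop, Finset.sum_comm]
  refine Finset.sum_congr rfl fun i _ => ?_
  rw [lintegral_finsetSum _ fun j _ => by fun_prop]
  refine Finset.sum_congr rfl fun j _ => ?_
  rw [← km_eq mK mψ, ← lintegral_mul_const _ (by fun_prop)]
  exact lintegral_congr fun z => by ring

omit [DecidableEq ι] in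
theorem trp_pk_one (mK : Measurable K) (mψ : ∀ j, Measurable (ψ j)) :
    trp K (pk ψ) = (km K ψ).trace := by
  rw [trp_eq mK (by unfold pk; fun_prop)]
  simp only [pk, Finset.mul_sum, Matrix.trace, Matrix.diag, km]
  rw [← lintegral_finsetSum _ fun j _ => by fun_prop]
  refine lintegral_congr fun x => ?_
  rw [← lintegral_finsetSum _ fun j _ => by fun_prop]
  exact lintegral_congr fun y => Finset.sum_congr rfl fun j _ => by ring

theorem toReal_pow {m : Matrix ι ι ℝ≥0∞} (h : ∀ i j, m i j ≠ ∞) (k : ℕ) :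
    ((m.map ENNReal.toReal) ^ k).trace = (m ^ k).trace.toReal := by
  obtain ⟨a, rfl⟩ : ∃ a : Matrix ι ι ℝ≥0, m = ENNReal.ofNNRealHom.mapMatrix a :=
    ⟨fun i j => (m i j).toNNReal, Matrix.ext fun i j => (ENNReal.coe_toNNReal (h i j)).symm⟩
  have e : (ENNReal.ofNNRealHom.mapMatrix a).map ENNReal.toReal = NNReal.toRealHom.mapMatrix a :=
    Matrix.ext fun i j => ENNReal.coe_toReal _
  rw [e, ← map_pow, ← map_pow, Matrix.trace, Matrix.trace, ENNReal.toReal_sum]
  · rfl
  · exact fun i _ => ENNReal.coe_ne_top (r := (a ^ k) i i)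

end

end Vale.Agent.P155.LJ
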