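import Mathlib

/-!
# P155: square integrable nonnegative kernels
-/

namespace Vale.Agent.P155.LJ

open MeasureTheory Set Filter Topology
open scoped ENNReal

noncomputable section

/-- the distance of two extended numbers -/
def sd (a b : ℝ≥0∞) : ℝ≥0∞ := max (a - b) (b - a)

theorem sd_le {a b e : ℝ≥0∞} : sd a b ≤ e ↔ a ≤ b + e ∧ b ≤ a + e := by
  simp only [sd, max_le_iff, tsub_le_iff_left]

theorem le_sd (a b : ℝ≥0∞) : a ≤ b + sd a b := (sd_le.1 le_rfl).1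

theorem le_sd' (a b : ℝ≥0∞) : b ≤ a + sd a b := (sd_le.1 le_rfl).2

theorem sd_tri (a b c : ℝ≥0∞) : sd a c ≤ sd a b + sd b c := by
  refine sd_le.2 ⟨(le_sd a b).trans ?_, (le_sd' b c).trans ?_⟩
  · rw [add_comm (sd a b), ← add_assoc]; gcongr; exact le_sd b c
  · rw [← add_assoc]; gcongr; exact le_sd' a b

@[fun_prop] theorem measurable_sd {α : Type*} [MeasurableSpace α] {f g : α → ℝ≥0∞}
    (hf : Measurable f) (hg : Measurable g) : Measurable fun a => sd (f a) (g a) := by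
  unfold sd; fun_prop

theorem sd_mul (a a' b b' : ℝ≥0∞) :
    sd (a' * b') (a * b) ≤ sd a' a * b + sd a' a * sd b' b + a * sd b' b := by
  refine sd_le.2 ⟨?_, ?_⟩
  · calc a' * b' ≤ (a + sd a' a) * (b + sd b' b) := by gcongr <;> exact le_sd _ _
      _ = _ := by ring
  · calc a * b ≤ a * (b' + sd b' b) := by gcongr; exact le_sd' _ _
      _ = a * b' + a * sd b' b := by ring
      _ ≤ (a' + sd a' a) * b' + a * sd b' b := by gcongr; exact le_sd' _ _
      _ = a' * b' + sd a' a * b' + a * sd b' b := by ring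
      _ ≤ a' * b' + sd a' a * (b + sd b' b) + a * sd b' b := by gcongr; exact le_sd _ _
      _ = _ := by ring

theorem tendsto_of_sd {ι : Type*} {L : Filter ι} {a : ι → ℝ≥0∞} {b : ℝ≥0∞} (hb : b ≠ ∞)
    (h : Tendsto (fun n => sd (a n) b) L (𝓝 0)) : Tendsto a L (𝓝 b) := by
  rw [ENNReal.tendsto_nhds hb]
  intro ε hε
  filter_upwards [ENNReal.tendsto_nhds_zero.1 h ε hε] with n hn
  exact ⟨tsub_le_iff_right.2 (sd_le.1 hn).2, (sd_le.1 hn).1⟩

theorem add_sq_le (a b : ℝ≥0∞) : (a + b) ^ 2 ≤ 2 * a ^ 2 + 2 * b ^ 2 := by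
  have := ENNReal.rpow_add_le_mul_rpow_add_rpow a b (p := 2) (by norm_num)
  norm_num at this
  rwa [mul_add] at this

section
variable {α : Type*} [MeasurableSpace α] {μ : Measure α} {f g f' g' : α → ℝ≥0∞}

theorem sd_lint (hf : Measurable f) (hg : Measurable g) :
    sd (∫⁻ a, f a ∂μ) (∫⁻ a, g a ∂μ) ≤ ∫⁻ a, sd (f a) (g a) ∂μ := by
  refine sd_le.2 ⟨?_, ?_⟩
  · rw [← lintegral_add_left hg]; exact lintegral_mono fun a => le_sd _ _
  · rw [← lintegral_add_left hf]; exact lintegral_mono fun a => le_sd' _ _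

theorem sd_lint_mul (hf : Measurable f) (hg : Measurable g) (hf' : Measurable f')
    (hg' : Measurable g') : sd (∫⁻ a, f' a * g' a ∂μ) (∫⁻ a, f a * g a ∂μ) ≤
      ∫⁻ a, sd (f' a) (f a) * g a ∂μ + ∫⁻ a, sd (f' a) (f a) * sd (g' a) (g a) ∂μ +
        ∫⁻ a, f a * sd (g' a) (g a) ∂μ := by
  rw [← lintegral_add_left (by fun_prop), ← lintegral_add_left (by fun_prop)]
  exact (sd_lint (by fun_prop) (by fun_prop)).trans (lintegral_mono fun a => sd_mul _ _ _ _)

theorem cs (hf : Measurable f) (hg : Measurable g) :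
    (∫⁻ a, f a * g a ∂μ) ^ 2 ≤ (∫⁻ a, f a ^ 2 ∂μ) * ∫⁻ a, g a ^ 2 ∂μ := by
  have := ENNReal.lintegral_mul_le_Lp_mul_Lq μ Real.HolderConjugate.two_two hf.aemeasurable
    hg.aemeasurable
  have e : ∀ x : ℝ≥0∞, (x ^ (1 / 2 : ℝ)) ^ 2 = x := fun x => by
    rw [← ENNReal.rpow_natCast, ← ENNReal.rpow_mul]; norm_num
  refine (pow_le_pow_left' this 2).trans (le_of_eq ?_)
  simp only [mul_pow, e, ENNReal.rpow_two]

end

/-- composition of kernels -/
def cmp (K L : ℂ × ℂ → ℝ≥0∞) (p : ℂ × ℂ) : ℝ≥0∞ := ∫⁻ z, K (p.1, z) * L (z, p.2)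
/-- the square of the Hilbert-Schmidt norm -/
def N2 (K : ℂ × ℂ → ℝ≥0∞) : ℝ≥0∞ := ∫⁻ p, K p ^ 2
/-- the trace of a composition -/
def trp (K L : ℂ × ℂ → ℝ≥0∞) : ℝ≥0∞ := ∫⁻ p, K p * L p.swap
/-- the power `k + 1` of a kernel -/
def pw (K : ℂ × ℂ → ℝ≥0∞) : ℕ → ℂ × ℂ → ℝ≥0∞
  | 0 => K
  | k + 1 => cmp K (pw K k)
/-- convergence in the Hilbert-Schmidt norm -/
def Cv (Kn : ℕ → ℂ × ℂ → ℝ≥0∞) (K : ℂ × ℂ → ℝ≥0∞) : Prop :=
  Tendsto (fun n => N2 fun p => sd (Kn n p) (K p)) atTop (𝓝 0)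

variable {K L M : ℂ × ℂ → ℝ≥0∞} {Kn Ln : ℕ → ℂ × ℂ → ℝ≥0∞}

@[fun_prop] theorem measurable_cmp (hK : Measurable K) (hL : Measurable L) :
    Measurable (cmp K L) := by
  unfold cmp; fun_prop

@[fun_prop] theorem measurable_pw (hK : Measurable K) (k : ℕ) : Measurable (pw K k) := by
  induction k with
  | zero => exact hK
  | succ k ih => exact measurable_cmp hK ih

theorem N2_eq (hK : Measurable K) : N2 K = ∫⁻ x, ∫⁻ y, K (x, y) ^ 2 :=
  lintegral_prod _ (by fun_prop)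

theorem N2_eq' (hK : Measurable K) : N2 K = ∫⁻ y, ∫⁻ x, K (x, y) ^ 2 :=
  lintegral_prod_symm _ (by fun_prop)

theorem trp_eq (hK : Measurable K) (hL : Measurable L) :
    trp K L = ∫⁻ x, ∫⁻ y, K (x, y) * L (y, x) :=
  lintegral_prod _ (by fun_prop)

theorem N2_mono (h : ∀ p, K p ≤ L p) : N2 K ≤ N2 L :=
  lintegral_mono fun p => pow_le_pow_left' (h p) 2

theorem N2_add (hK : Measurable K) (hL : Measurable L) :
    (N2 fun p => K p + L p) ≤ 2 * N2 K + 2 * N2 L := by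
  rw [N2, N2, N2, ← lintegral_const_mul _ (by fun_prop), ← lintegral_const_mul _ (by fun_prop),
    ← lintegral_add_left (by fun_prop)]
  exact lintegral_mono fun p => add_sq_le _ _

theorem N2_cmp (hK : Measurable K) (hL : Measurable L) : N2 (cmp K L) ≤ N2 K * N2 L := by
  rw [N2_eq (measurable_cmp hK hL), N2_eq hK, N2_eq' hL,
    ← lintegral_mul_const _ (by fun_prop)]
  refine lintegral_mono fun x => ?_
  rw [← lintegral_const_mul _ (by fun_prop)]
  exact lintegral_mono fun y => cs (by fun_prop) (by fun_prop)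

theorem trp_sq (hK : Measurable K) (hL : Measurable L) : trp K L ^ 2 ≤ N2 K * N2 L := by
  refine (cs hK (g := fun p => L p.swap) (by fun_prop)).trans (le_of_eq ?_)
  exact congrArg _ (lintegral_prod_swap (μ := volume) (ν := volume) fun p => L p ^ 2)

theorem N2_pw (hK : Measurable K) (k : ℕ) : N2 (pw K k) ≤ N2 K ^ (k + 1) := by
  induction k with
  | zero => simp [pw]
  | succ k ih =>
    rw [pow_succ']
    exact (N2_cmp hK (measurable_pw hK k)).trans (by gcongr)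

theorem trp_pw (hK : Measurable K) {c : ℝ≥0∞} (h : N2 K ≤ c ^ 2) (k : ℕ) :
    trp K (pw K k) ≤ c ^ (k + 2) := by
  refine (ENNReal.pow_le_pow_left_iff two_ne_zero).1 ?_
  calc _ ≤ N2 K * N2 (pw K k) := trp_sq hK (measurable_pw hK k)
    _ ≤ c ^ 2 * (c ^ 2) ^ (k + 1) := by gcongr; exact (N2_pw hK k).trans (by gcongr)
    _ = _ := by ring

theorem lim3 {a b : ℕ → ℝ≥0∞} {c d : ℝ≥0∞} (ha : Tendsto a atTop (𝓝 0))
    (hb : Tendsto b atTop (𝓝 0)) (hc : c ≠ ∞) (hd : d ≠ ∞) :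
    Tendsto (fun n => a n * d) atTop (𝓝 0) ∧ Tendsto (fun n => a n * b n) atTop (𝓝 0) ∧
      Tendsto (fun n => c * b n) atTop (𝓝 0) := by
  refine ⟨?_, ?_, ?_⟩
  · simpa using ENNReal.Tendsto.mul_const ha (.inr hd)
  · simpa using ENNReal.Tendsto.mul ha (.inr ENNReal.zero_ne_top) hb (.inr ENNReal.zero_ne_top)
  · simpa using ENNReal.Tendsto.const_mul hb (.inr hc)

theorem lim2 {a b : ℕ → ℝ≥0∞} (ha : Tendsto a atTop (𝓝 0)) (hb : Tendsto b atTop (𝓝 0)) :
    Tendsto (fun n => 2 * a n + 2 * b n) atTop (𝓝 0) := by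
  simpa using (ENNReal.Tendsto.const_mul (a := 2) ha (.inr (by simp))).add
    (ENNReal.Tendsto.const_mul (a := 2) hb (.inr (by simp)))

theorem Cv.cmp (h : Cv Kn K) (h' : Cv Ln L) (mK : Measurable K) (mL : Measurable L)
    (mKn : ∀ n, Measurable (Kn n)) (mLn : ∀ n, Measurable (Ln n)) (fK : N2 K ≠ ∞)
    (fL : N2 L ≠ ∞) : Cv (fun n => cmp (Kn n) (Ln n)) (cmp K L) := by
  obtain ⟨a, b, c⟩ := lim3 h h' fK fL
  refine tendsto_of_tendsto_of_tendsto_of_le_of_le tendsto_const_nhds (lim2 (lim2 a b) c)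
    (fun _ => zero_le) fun n => ?_
  have := mKn n
  have := mLn n
  set E := fun p => sd (Kn n p) (K p)
  set F := fun p => sd (Ln n p) (L p)
  have mE : Measurable E := by fun_prop
  have mF : Measurable F := by fun_prop
  refine (N2_mono (L := fun p => (LJ.cmp E L p + LJ.cmp E F p) + LJ.cmp K F p) fun p =>
    sd_lint_mul (by fun_prop) (by fun_prop) (by fun_prop) (by fun_prop)).trans ?_
  refine (N2_add (by fun_prop) (by fun_prop)).trans ?_
  gcongr
  · refine (N2_add (by fun_prop) (by fun_prop)).trans ?_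
    gcongr <;> exact N2_cmp (by fun_prop) (by fun_prop)
  · exact N2_cmp (by fun_prop) (by fun_prop)

theorem Cv.pw (h : Cv Kn K) (mK : Measurable K) (mKn : ∀ n, Measurable (Kn n)) (fK : N2 K ≠ ∞)
    (k : ℕ) : Cv (fun n => pw (Kn n) k) (pw K k) := by
  induction k with
  | zero => exact h
  | succ k ih =>
    exact h.cmp ih mK (by fun_prop) mKn (fun n => measurable_pw (mKn n) k) fK
      (ne_top_of_le_ne_top (ENNReal.pow_ne_top fK) (N2_pw mK k))

theorem lim_sq {a b : ℕ → ℝ≥0∞} (hb : Tendsto b atTop (𝓝 0)) (h : ∀ n, a n ^ 2 ≤ b n) :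
    Tendsto a atTop (𝓝 0) := by
  refine ENNReal.tendsto_nhds_zero.2 fun ε hε => ?_
  filter_upwards [ENNReal.tendsto_nhds_zero.1 hb (ε ^ 2) (ENNReal.pow_pos hε 2)] with n hn
  exact (ENNReal.pow_le_pow_left_iff two_ne_zero).1 ((h n).trans hn)

theorem trp_ne_top (mK : Measurable K) (mL : Measurable L) (fK : N2 K ≠ ∞) (fL : N2 L ≠ ∞) :
    trp K L ≠ ∞ := fun h => by
  have := trp_sq mK mL
  rw [h, ENNReal.top_pow two_ne_zero, top_le_iff] at this
  exact ENNReal.mul_ne_top fK fL this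

theorem Cv.trp (h : Cv Kn K) (h' : Cv Ln L) (mK : Measurable K) (mL : Measurable L)
    (mKn : ∀ n, Measurable (Kn n)) (mLn : ∀ n, Measurable (Ln n)) (fK : N2 K ≠ ∞)
    (fL : N2 L ≠ ∞) : Tendsto (fun n => trp (Kn n) (Ln n)) atTop (𝓝 (trp K L)) := by
  obtain ⟨a, b, c⟩ := lim3 h h' fK fL
  have mE : ∀ n, Measurable fun p => sd (Kn n p) (K p) := fun n => measurable_sd (mKn n) mK
  have mF : ∀ n, Measurable fun p => sd (Ln n p) (L p) := fun n => measurable_sd (mLn n) mL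
  have := ((lim_sq a fun n => trp_sq (mE n) mL).add (lim_sq b fun n => trp_sq (mE n) (mF n))).add
    (lim_sq c fun n => trp_sq mK (mF n))
  refine tendsto_of_sd (trp_ne_top mK mL fK fL) (tendsto_of_tendsto_of_tendsto_of_le_of_le
    tendsto_const_nhds (by simpa using this) (fun _ => zero_le) fun n => ?_)
  have := mLn n
  exact sd_lint_mul mK (by fun_prop) (mKn n) (by fun_prop)

end

end Vale.Agent.P155.LJ
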