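import Vale.Agent.P155L.Defs
import Vale.Agent.P155B.Tail

/-!
# P155: the mass of the loops which are killed by a potential
-/

namespace Vale.Agent.P155.LJ

open MeasureTheory Set Filter Topology Metric Vale.Agent.P155.Q1 Vale.Agent.P155.BL
open scoped ENNReal

variable {W : Measure Pa} {V V' : Set ℂ} {u : ℂ → ℝ} {l : ℝ} {q : ℝ × CL}

/-- loops in `V` which leave `V'` and meet the support of `u` -/
def SL (V V' : Set ℂ) (u : ℂ → ℝ) : Set CL :=
  {γ | range γ ⊆ V ∧ ¬ range γ ⊆ V' ∧ (range γ ∩ Function.support u).Nonempty}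

theorem measurable_occL (hu : Continuous u) : Measurable (occL u) :=
  measurable_fst.mul ((hu.measurable.comp (f := fun p : (ℝ × CL) × S1 => p.1.2 p.2)
    (by fun_prop)).stronglyMeasurable.integral_prod_right' (ν := volume)).measurable

theorem occL_nonneg (h0 : ∀ x, 0 ≤ u x) (hq : 0 ≤ q.1) : 0 ≤ occL u q :=
  mul_nonneg hq (integral_nonneg fun _ => h0 _)

theorem occL_zero (h : ¬ (range q.2 ∩ Function.support u).Nonempty) : occL u q = 0 := by
  have (a : S1) : u (q.2 a) = 0 := by
    by_contra h'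
    exact h ⟨_, ⟨a, rfl⟩, h'⟩
  simp [occL, this]

theorem occL_pos (hu : Continuous u) (h0 : ∀ x, 0 ≤ u x) (hq : 0 < q.1)
    (h : (range q.2 ∩ Function.support u).Nonempty) : 0 < occL u q := by
  obtain ⟨_, ⟨a, rfl⟩, ha⟩ := h
  exact mul_pos hq ((hu.comp q.2.continuous).integral_pos_of_hasCompactSupport_nonneg_nonzero
    (HasCompactSupport.of_compactSpace _) (fun _ => h0 _) ha)

theorem meas_TL (hV : IsOpen V) (hV' : IsOpen V') :
    MeasurableSet {q : ℝ × CL | range q.2 ⊆ V ∧ ¬ range q.2 ⊆ V'} :=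
  measurable_snd ((measurableSet_range_open hV).inter (measurableSet_range_open hV').compl)

theorem meas_SL (hV : IsOpen V) (hV' : IsOpen V') (hu : Continuous u) :
    MeasurableSet (SL V V' u) := by
  have e : {γ : CL | (range γ ∩ Function.support u).Nonempty} =
      {γ : CL | range γ ⊆ (Function.support u)ᶜ}ᶜ := Set.ext fun γ =>
    not_disjoint_iff_nonempty_inter.symm.trans subset_compl_iff_disjoint_right.symm.not
  exact (measurableSet_range_open hV).inter ((measurableSet_range_open hV').compl.inter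
    (e ▸ (measurableSet_range_closed (X := S1) hu.isOpen_support.isClosed_compl).compl :))

theorem lam_fin (hW : IsWiener W) (hV' : IsOpen V') (hb : Bornology.IsBounded V)
    (hc : HasCompactSupport u) (hs : tsupport u ⊆ V') : loopM W (SL V V' u) ≠ ⊤ := by
  obtain ⟨δ, hδ, h⟩ := hc.isCompact.exists_cthickening_subset_open hV' hs
  refine (lt_of_le_of_lt (measure_mono fun γ hγ => And.intro hγ.1 ?_) (hW.fin hb hδ)).ne
  obtain ⟨x, hx, hx'⟩ := not_subset.1 hγ.2.1
  obtain ⟨y, hy, hy'⟩ := hγ.2.2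
  refine lt_of_lt_of_le (not_le.1 fun hd => hx' (h ?_))
    (dist_le_diam_of_mem (isCompact_range γ.continuous).isBounded hx hy)
  exact mem_cthickening_of_dist_le x y δ _ (subset_tsupport _ hy') hd

theorem lam_nonneg : 0 ≤ lam W V V' u l := ENNReal.toReal_nonneg

theorem ind_eq (hV : IsOpen V) (hV' : IsOpen V') (hu : Continuous u) :
    ∫⁻ q in {q : ℝ × CL | range q.2 ⊆ V ∧ ¬ range q.2 ⊆ V'},
      {q : ℝ × CL | q.2 ∈ SL V V' u}.indicator 1 q ∂loopT W = loopM W (SL V V' u) := by
  have m : MeasurableSet {q : ℝ × CL | q.2 ∈ SL V V' u} := measurable_snd (meas_SL hV hV' hu)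
  rw [lintegral_indicator_one m, Measure.restrict_apply m, loopM_apply (meas_SL hV hV' hu)]
  exact congrArg _ (inter_eq_left.2 fun q hq => And.intro hq.1 hq.2.1)

theorem pt_le (l : ℝ) (hq : range q.2 ⊆ V ∧ ¬ range q.2 ⊆ V') :
    ENNReal.ofReal (1 - Real.exp (-l * occL u q)) ≤ {q : ℝ × CL | q.2 ∈ SL V V' u}.indicator 1 q := by
  by_cases h : (range q.2 ∩ Function.support u).Nonempty
  · rw [indicator_of_mem (by exact ⟨hq.1, hq.2, h⟩)]
    exact ENNReal.ofReal_le_one.2 (sub_le_self _ (Real.exp_pos _).le)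
  · simp [occL_zero h]

theorem lint_le (hV : IsOpen V) (hV' : IsOpen V') (hu : Continuous u) (l : ℝ) :
    ∫⁻ q in {q : ℝ × CL | range q.2 ⊆ V ∧ ¬ range q.2 ⊆ V'},
      ENNReal.ofReal (1 - Real.exp (-l * occL u q)) ∂loopT W ≤ loopM W (SL V V' u) :=
  (setLIntegral_mono' (meas_TL hV hV') fun _ hq => pt_le l hq).trans_eq (ind_eq hV hV' hu)

section

variable (hW : IsWiener W) (hV : IsOpen V) (hV' : IsOpen V') (hb : Bornology.IsBounded V)
  (hu : Continuous u) (hc : HasCompactSupport u) (h0 : ∀ x, 0 ≤ u x) (hs : tsupport u ⊆ V')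
include hW hV hV' hb hu hc hs

theorem lam_le (l : ℝ) : lam W V V' u l ≤ (loopM W (SL V V' u)).toReal :=
  ENNReal.toReal_mono (lam_fin hW hV' hb hc hs) (lint_le hV hV' hu l)

omit hV' hs in
theorem lam_mono_dom {V'' : Set ℂ} (hV'' : IsOpen V'') (h : V'' ⊆ V') (hs : tsupport u ⊆ V'')
    (l : ℝ) : lam W V V' u l ≤ lam W V V'' u l :=
  ENNReal.toReal_mono (ne_top_of_le_ne_top (lam_fin hW hV'' hb hc hs) (lint_le hV hV'' hu l))
    (lintegral_mono_set fun _ hq => ⟨hq.1, fun h' => hq.2 (h'.trans h)⟩)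

include h0

theorem lam_monotone : Monotone (lam W V V' u) := fun a b hab => by
  have := hW.prob
  refine ENNReal.toReal_mono (ne_top_of_le_ne_top (lam_fin hW hV' hb hc hs) (lint_le hV hV' hu b))
    (lintegral_mono_ae (ae_restrict_of_ae (ae_pos.mono fun q hq => ?_)))
  have := occL_nonneg h0 hq.le
  gcongr

theorem lam_mono : MonotoneOn (lam W V V' u) (Ici 0) :=
  (lam_monotone hW hV hV' hb hu hc h0 hs).monotoneOn _

theorem lam_tendsto : Tendsto (lam W V V' u) atTop (𝓝 (loopM W (SL V V' u)).toReal) := by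
  have := hW.prob
  have m := meas_TL hV hV'
  refine (ENNReal.tendsto_toReal (lam_fin hW hV' hb hc hs)).comp ?_
  rw [← ind_eq hV hV' hu]
  refine tendsto_lintegral_filter_of_dominated_convergence _
    (Eventually.of_forall fun l => (measurable_const.sub
      ((measurable_occL hu).const_mul _).exp).ennreal_ofReal)
    (Eventually.of_forall fun l => ae_restrict_of_forall_mem m fun q hq => pt_le l hq)
    (ind_eq (W := W) hV hV' hu ▸ lam_fin hW hV' hb hc hs) ?_
  filter_upwards [ae_restrict_mem m, ae_restrict_of_ae ae_pos] with q hq hp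
  by_cases h : (range q.2 ∩ Function.support u).Nonempty
  · rw [indicator_of_mem (by exact ⟨hq.1, hq.2, h⟩)]
    simpa using ENNReal.tendsto_ofReal ((Real.tendsto_exp_atBot.comp
      (tendsto_neg_atTop_atBot.atBot_mul_const (occL_pos hu h0 hp h))).const_sub 1)
  · rw [indicator_of_notMem fun h' => h h'.2.2]
    simp [occL_zero h]

end

end Vale.Agent.P155.LJ
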