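import Vale.Agent.P155L.Lam

/-!
# P155: the mass of the killed loops under a gap condition
-/

namespace Vale.Agent.P155.LJ

open MeasureTheory Set Filter Topology Metric Vale.Agent.P155.Q1 Vale.Agent.P155.BL
open scoped ENNReal

variable {W : Measure Pa} {V V' : Set ℂ} {u : ℂ → ℝ}

/-- the support of `u` stays away from `V \ V'` -/
def Gp (V V' : Set ℂ) (u : ℂ → ℝ) : Prop :=
  ∃ d > 0, ∀ x ∈ tsupport u, ∀ y ∈ V \ V', d ≤ dist x y

theorem lam_fin' (hW : IsWiener W) (hb : Bornology.IsBounded V) (hg : Gp V V' u) :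
    loopM W (SL V V' u) ≠ ⊤ := by
  obtain ⟨δ, hδ, h⟩ := hg
  refine (lt_of_le_of_lt (measure_mono fun γ hγ => And.intro hγ.1 ?_) (hW.fin hb (half_pos hδ))).ne
  obtain ⟨x, hx, hx'⟩ := not_subset.1 hγ.2.1
  obtain ⟨y, hy, hy'⟩ := hγ.2.2
  exact (half_lt_self hδ).trans_le ((h y (subset_tsupport _ hy') x ⟨hγ.1 hx, hx'⟩).trans
    (dist_le_diam_of_mem (isCompact_range γ.continuous).isBounded hy hx))

variable (hV : IsOpen V) (hV' : IsOpen V') (hu : Continuous u)
include hV hV' hu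

theorem lam_le_of (hf : loopM W (SL V V' u) ≠ ⊤) (l : ℝ) :
    lam W V V' u l ≤ (loopM W (SL V V' u)).toReal :=
  ENNReal.toReal_mono hf (lint_le hV hV' hu l)

omit hV' in
theorem lam_mono_dom_of {V'' : Set ℂ} (hV'' : IsOpen V'') (h : V'' ⊆ V')
    (hf : loopM W (SL V V'' u) ≠ ⊤) (l : ℝ) : lam W V V' u l ≤ lam W V V'' u l :=
  ENNReal.toReal_mono (ne_top_of_le_ne_top hf (lint_le hV hV'' hu l))
    (lintegral_mono_set fun _ hq => ⟨hq.1, fun h' => hq.2 (h'.trans h)⟩)

theorem lam_monotone_of (hW : IsWiener W) (h0 : ∀ x, 0 ≤ u x) (hf : loopM W (SL V V' u) ≠ ⊤) :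
    Monotone (lam W V V' u) := fun a b hab => by
  have := hW.prob
  refine ENNReal.toReal_mono (ne_top_of_le_ne_top hf (lint_le hV hV' hu b))
    (lintegral_mono_ae (ae_restrict_of_ae (ae_pos.mono fun q hq => ?_)))
  have := occL_nonneg h0 hq.le
  gcongr

theorem lam_tendsto_of (hW : IsWiener W) (h0 : ∀ x, 0 ≤ u x) (hf : loopM W (SL V V' u) ≠ ⊤) :
    Tendsto (lam W V V' u) atTop (𝓝 (loopM W (SL V V' u)).toReal) := by
  have := hW.prob
  have m := meas_TL hV hV'
  refine (ENNReal.tendsto_toReal hf).comp ?_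
  rw [← ind_eq hV hV' hu]
  refine tendsto_lintegral_filter_of_dominated_convergence _
    (Eventually.of_forall fun l => (measurable_const.sub
      ((measurable_occL hu).const_mul _).exp).ennreal_ofReal)
    (Eventually.of_forall fun l => ae_restrict_of_forall_mem m fun q hq => pt_le l hq)
    (ind_eq (W := W) hV hV' hu ▸ hf) ?_
  filter_upwards [ae_restrict_mem m, ae_restrict_of_ae ae_pos] with q hq hp
  by_cases h : (range q.2 ∩ Function.support u).Nonempty
  · rw [indicator_of_mem (by exact ⟨hq.1, hq.2, h⟩)]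
    simpa using ENNReal.tendsto_ofReal ((Real.tendsto_exp_atBot.comp
      (tendsto_neg_atTop_atBot.atBot_mul_const (occL_pos hu h0 hp h))).const_sub 1)
  · rw [indicator_of_notMem fun h' => h h'.2.2]
    simp [occL_zero h]

theorem lam_le' (hW : IsWiener W) (hb : Bornology.IsBounded V) (hg : Gp V V' u) (l : ℝ) :
    lam W V V' u l ≤ (loopM W (SL V V' u)).toReal := lam_le_of hV hV' hu (lam_fin' hW hb hg) l

theorem lam_monotone' (hW : IsWiener W) (hb : Bornology.IsBounded V) (h0 : ∀ x, 0 ≤ u x)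
    (hg : Gp V V' u) : Monotone (lam W V V' u) :=
  lam_monotone_of hV hV' hu hW h0 (lam_fin' hW hb hg)

theorem lam_tendsto' (hW : IsWiener W) (hb : Bornology.IsBounded V) (h0 : ∀ x, 0 ≤ u x)
    (hg : Gp V V' u) : Tendsto (lam W V V' u) atTop (𝓝 (loopM W (SL V V' u)).toReal) :=
  lam_tendsto_of hV hV' hu hW h0 (lam_fin' hW hb hg)

omit hV' in
theorem lam_mono_dom' (hW : IsWiener W) (hb : Bornology.IsBounded V) {V'' : Set ℂ}
    (hV'' : IsOpen V'') (h : V'' ⊆ V') (hg : Gp V V'' u) (l : ℝ) :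
    lam W V V' u l ≤ lam W V V'' u l := lam_mono_dom_of hV hu hV'' h (lam_fin' hW hb hg) l

end Vale.Agent.P155.LJ
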