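import Vale.Agent.P155L.Mom

/-!
# P155: traces of powers and determinants of positive matrices
-/

namespace Vale.Agent.P155.LJ

open MeasureTheory Set Filter Topology Matrix
open scoped Nat

section
variable {ι : Type} [Fintype ι] [DecidableEq ι] {M : Matrix ι ι ℝ}

theorem spec (hM : M.IsHermitian) : ∃ f : Matrix ι ι ℝ →ₐ[ℝ] Matrix ι ι ℝ,
    M = f (diagonal hM.eigenvalues) ∧ (∀ X, (f X).trace = X.trace) ∧ ∀ X, (f X).det = X.det := by
  refine ⟨(Unitary.conjStarAlgAut ℝ _ hM.eigenvectorUnitary : _ ≃⋆ₐ[ℝ] _), ?_, fun X => ?_,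
    fun X => ?_⟩
  · simpa using hM.spectral_theorem
  · simp [Unitary.conjStarAlgAut_apply, trace_mul_cycle]
  · change (Unitary.conjStarAlgAut ℝ _ hM.eigenvectorUnitary X).det = _
    rw [Unitary.conjStarAlgAut_apply, det_mul, det_mul, mul_comm, ← mul_assoc, ← det_mul]
    simp

theorem trace_pow (hM : M.IsHermitian) (k : ℕ) :
    (M ^ k).trace = ∑ i, hM.eigenvalues i ^ k := by
  obtain ⟨f, e, h1, -⟩ := spec hM
  conv_lhs => rw [e, ← map_pow, h1, diagonal_pow, trace_diagonal]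
  rfl

theorem log_det (hM : M.PosSemidef) {l : ℝ} (hl : 0 ≤ l) :
    Real.log (1 + l • M).det = ∑ i, Real.log (1 + l * hM.1.eigenvalues i) := by
  obtain ⟨f, e, -, h2⟩ := spec hM.1
  have : 1 + l • M = f (diagonal fun i => 1 + l * hM.1.eigenvalues i) := by
    conv_lhs => rw [e, ← map_smul, ← map_one f, ← map_add, ← diagonal_one, ← diagonal_smul,
      diagonal_add]
    rfl
  rw [this, h2, det_diagonal, Real.log_prod]
  intro i _
  have := mul_nonneg hl (hM.eigenvalues_nonneg i)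
  linarith

end

theorem mom_mat {ι : ℕ → Type} [∀ n, Fintype (ι n)] [∀ n, DecidableEq (ι n)]
    {M : ∀ n, Matrix (ι n) (ι n) ℝ} (hM : ∀ n, (M n).PosSemidef)
    {C : ℝ} (hC : 0 < C) (hb : ∀ n j, (M n ^ (j + 2)).trace ≤ C ^ (j + 2))
    {Ω : Type*} [MeasurableSpace Ω] {μ : Measure Ω} [SFinite μ] {A : Ω → ℝ} (hA : Measurable A)
    (hA0 : ∀ᵐ ω ∂μ, 0 ≤ A ω) (hi : ∀ j, Integrable (fun ω => A ω ^ (j + 2)) μ)
    (hl : ∀ j, Tendsto (fun n => (M n ^ (j + 2)).trace) atTop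
      (𝓝 ((∫ ω, A ω ^ (j + 2) ∂μ) / (j + 1)!))) {l : ℝ} (l0 : 0 ≤ l) :
    Tendsto (fun n => l * (M n).trace - Real.log (1 + l • M n).det) atTop
      (𝓝 (∫ ω, (Real.exp (-l * A ω) - 1 + l * A ω) ∂μ)) := by
  simp only [trace_pow (hM _).1] at hb hl
  refine (mom (fun n i => (hM n).eigenvalues_nonneg i) hC hb hA hA0 hi hl l0).congr fun n => ?_
  have := trace_pow (hM n).1 1
  simp only [pow_one] at this
  rw [log_det (hM n) l0, this, Finset.mul_sum, Finset.sum_sub_distrib]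

end Vale.Agent.P155.LJ
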