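import Vale.Agent.P155L.One
import Vale.Agent.P155L.Mat
import Vale.Agent.P155L.Lam2
import Vale.Agent.P155L.AI

/-!
# P155: Le Jan's identity: ratios of determinants of Green matrices and the loop measure
-/

namespace Vale.Agent.P155.LJ

open MeasureTheory Set Filter Topology Vale.Agent.P155.Q1 Vale.Agent.P155.BL
open scoped NNReal ENNReal

noncomputable section

variable {W : Measure Pa} {D V V' : Set ℂ} {u : ℂ → ℝ} {N : ℕ → ℕ} {φ : ∀ n, Fin (N n) → ℂ → ℝ}

theorem lint_fin {f : ℂ → ℝ} (hf : Continuous f) (hc : HasCompactSupport f) (f0 : ∀ x, 0 ≤ f x) :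
    ∫⁻ x, ENNReal.ofReal (f x) ≠ ∞ ∧ ∫⁻ x, ENNReal.ofReal (f x) ^ 2 ≠ ∞ := by
  refine ⟨(hf.integrable_of_hasCompactSupport hc).lintegral_lt_top.ne, ?_⟩
  simp only [pow_two, ← ENNReal.ofReal_mul (f0 _)]
  exact ((hf.mul hf).integrable_of_hasCompactSupport hc.mul_left).lintegral_lt_top.ne

namespace AI
variable (h : AI u N φ)
include h

theorem u0 (x : ℂ) : 0 ≤ u x := by
  rw [← h.sum 0 x]
  exact Finset.sum_nonneg fun j _ => mul_nonneg (h.nonneg _ _ _) (integral_nonneg (h.nonneg _ _))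

theorem cptφ (n : ℕ) (j : Fin (N n)) : HasCompactSupport (φ n j) := h.cpt.mono (h.supp n j)

theorem measφ (n : ℕ) (j : Fin (N n)) : Measurable fun x => ENNReal.ofReal (φ n j x) :=
  (h.contφ n j).measurable.ennreal_ofReal

theorem ak : AK (fun z => ENNReal.ofReal (u z))
    fun n => pk fun j x => ENNReal.ofReal (φ n j x) := by
  have m := h.measφ
  have m' := fun n j => (h.contφ n j).measurable
  have e : ∀ n y, ∑ j, ENNReal.ofReal (φ n j y) * ∫⁻ z, ENNReal.ofReal (φ n j z) =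
      ENNReal.ofReal (u y) := fun n y => by
    rw [← h.sum n y, ENNReal.ofReal_sum_of_nonneg fun j _ =>
      mul_nonneg (h.nonneg _ _ _) (integral_nonneg (h.nonneg _ _))]
    refine Finset.sum_congr rfl fun j _ => ?_
    rw [ENNReal.ofReal_mul (h.nonneg _ _ _), ofReal_integral_eq_lintegral_ofReal
      ((h.contφ n j).integrable_of_hasCompactSupport (h.cptφ n j))
      (Eventually.of_forall (h.nonneg n j))]
  refine ⟨h.cont.measurable.ennreal_ofReal, fun n => by unfold pk; fun_prop, fun n y => ?_,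
    fun n y => ?_, fun n p hp => ?_⟩
  · simp only [pk]
    rw [lintegral_finsetSum _ fun j _ => by fun_prop, ← e n y]
    exact Finset.sum_congr rfl fun j _ => by rw [lintegral_mul_const _ (m n j), mul_comm]
  · simp only [pk]
    rw [lintegral_finsetSum _ fun j _ => by fun_prop, ← e n y]
    exact Finset.sum_congr rfl fun j _ => lintegral_const_mul _ (m n j)
  · obtain ⟨j, -, hj⟩ := Finset.exists_ne_zero_of_sum_ne_zero hp
    refine h.small n j _ _ (fun e => hj ?_) fun e => hj ?_ <;> simp [e]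

theorem bdd : ∃ c : ℝ≥0∞, c ≠ ∞ ∧ ∀ x, ENNReal.ofReal (u x) ≤ c := by
  obtain ⟨C, hC⟩ := h.cont.bounded_above_of_compact_support h.cpt
  exact ⟨ENNReal.ofReal C, ENNReal.ofReal_ne_top, fun x =>
    ENNReal.ofReal_le_ofReal ((le_abs_self _).trans (hC x))⟩

theorem km_fin {K : ℂ × ℂ → ℝ≥0∞} (mK : Measurable K) (fK : N2 K ≠ ∞) (n : ℕ) (i j : Fin (N n)) :
    km K (fun j x => ENNReal.ofReal (φ n j x)) i j ≠ ∞ := by
  have m := fun j => (h.contφ n j).measurable
  have := trp_ne_top mK (L := fun p => ENNReal.ofReal (φ n j p.1) * ENNReal.ofReal (φ n i p.2))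
    (by fun_prop) fK (by
      rw [N2_eq (by fun_prop)]
      simp only [mul_pow]
      rw [lintegral_lintegral_mul (by fun_prop) (by fun_prop)]
      exact ENNReal.mul_ne_top (lint_fin (h.contφ _ _) (h.cptφ _ _) (h.nonneg _ _)).2
        (lint_fin (h.contφ _ _) (h.cptφ _ _) (h.nonneg _ _)).2)
  rw [trp_eq mK (by fun_prop)] at this
  exact fun e => this ((lintegral_congr fun x => lintegral_congr fun y => by ring).trans e)

end AI

theorem exp_bd {a : ℝ} (ha : 0 ≤ a) : ‖Real.exp (-a) - 1 + a‖ ≤ a ^ 2 := by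
  have h1 := Real.add_one_le_exp (-a)
  have h2 : Real.exp (-a) ≤ (1 + a)⁻¹ := by
    rw [Real.exp_neg]
    exact inv_anti₀ (by positivity) (by linarith [Real.add_one_le_exp a])
  have h3 : (1 + a)⁻¹ ≤ 1 - a + a ^ 2 := by
    rw [inv_le_iff_one_le_mul₀ (by positivity)]
    nlinarith [pow_nonneg ha 3]
  rw [Real.norm_eq_abs, abs_of_nonneg (by linarith)]
  linarith

/-- the regularised determinant in one domain -/
theorem two_lim (hW : IsWiener W) (hD : IsOpen D) (fD : volume D ≠ ∞) (h : AI u N φ)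
    (hM : ∀ n, (gm W D (φ n)).PosSemidef) {l : ℝ} (l0 : 0 ≤ l) :
    IntegrableOn (fun q => Real.exp (-l * occL u q) - 1 + l * occL u q)
      {q : ℝ × CL | range q.2 ⊆ D} (loopT W) ∧
    Tendsto (fun n => l * (gm W D (φ n)).trace - Real.log (1 + l • gm W D (φ n)).det) atTop
      (𝓝 (∫ q in {q : ℝ × CL | range q.2 ⊆ D},
        (Real.exp (-l * occL u q) - 1 + l * occL u q) ∂loopT W)) := by
  have := hW.prob
  obtain ⟨c, fc, hc⟩ := h.bdd
  have mG := meas_Gk hW hD
  have fG := N2_Gk hW hD fD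
  have mA := measurable_occL h.cont
  have ak := h.ak
  have mU := h.cont.measurable
  set G : ℂ × ℂ → ℝ≥0∞ := fun p => Gk W D p.1 p.2
  set K : ℂ × ℂ → ℝ≥0∞ := fun p => G p * ENNReal.ofReal (u p.2)
  have mK : Measurable K := by fun_prop
  have fc2 := ENNReal.mul_ne_top (ENNReal.pow_ne_top (n := 2) fc) fG
  have fK : N2 K ≠ ∞ := ne_top_of_le_ne_top fc2 (N2_mul hc mG)
  have fT : ∀ j, trp K (pw K j) ≠ ∞ := fun j => trp_ne_top mK (measurable_pw mK j) fK
    (ne_top_of_le_ne_top (ENNReal.pow_ne_top fK) (N2_pw mK j))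
  have mKn := fun n => measurable_cmp mG (ak.meas n)
  have cv := ak.cv hc fc (lint_fin h.cont h.cpt h.u0).2 mG fG
  have e : ∀ n j, (gm W D (φ n) ^ (j + 2)).trace = (trp (cmp G (pk fun j x =>
      ENNReal.ofReal (φ n j x))) (pw (cmp G (pk fun j x => ENNReal.ofReal (φ n j x))) j)).toReal :=
    fun n j => by rw [trp_pk mG (h.measφ n), ← toReal_pow (h.km_fin mG fG n)]; rfl
  have A0 : ∀ᵐ q ∂(loopT W).restrict {q : ℝ × CL | range q.2 ⊆ D}, 0 ≤ occL u q :=
    ae_restrict_of_ae (ae_pos.mono fun q hq => (occL_eq h.cont h.u0 hq).1)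
  have e2 : ∀ j, ∫⁻ q in {q : ℝ × CL | range q.2 ⊆ D}, ENNReal.ofReal (occL u q ^ (j + 2))
      ∂loopT W = (j + 1).factorial * trp K (pw K j) := fun j =>
    (lintegral_congr_ae (A0.mono fun q hq => ENNReal.ofReal_pow hq _)).trans
      (loop_trp hW hD h.cont h.u0 j)
  have hi : ∀ j, Integrable (fun q => occL u q ^ (j + 2))
      ((loopT W).restrict {q : ℝ × CL | range q.2 ⊆ D}) := fun j =>
    ⟨(mA.pow_const _).aestronglyMeasurable, (hasFiniteIntegral_iff_ofReal
      (A0.mono fun q hq => pow_nonneg hq _)).2 (by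
        rw [e2]; exact ENNReal.mul_lt_top (by simp) (fT j).lt_top)⟩
  set C := (c ^ 2 * N2 G).toReal + 1
  have C1 : 1 ≤ C := le_add_of_nonneg_left ENNReal.toReal_nonneg
  have hC : c ^ 2 * N2 G ≤ ENNReal.ofReal C ^ 2 := by
    rw [← ENNReal.ofReal_toReal fc2, ← ENNReal.ofReal_pow (by linarith)]
    exact ENNReal.ofReal_le_ofReal ((by simp [C] : _ ≤ C).trans (by nlinarith))
  refine ⟨((hi 0).const_mul (l ^ 2)).mono' (Measurable.aestronglyMeasurable (by fun_prop))
    (A0.mono fun q hq => ?_), mom_mat hM (C := C) (by linarith) (fun n j => ?_) mA A0 hi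
    (fun j => ?_) l0⟩
  · rw [neg_mul, ← mul_pow]; exact exp_bd (mul_nonneg l0 hq)
  · rw [e, ← ENNReal.toReal_ofReal (show 0 ≤ C by linarith), ← ENNReal.toReal_pow]
    exact ENNReal.toReal_mono (ENNReal.pow_ne_top ENNReal.ofReal_ne_top)
      (trp_pw (mKn n) ((ak.schur hc mG n).trans hC) j)
  · rw [integral_eq_lintegral_of_nonneg_ae (A0.mono fun q hq => pow_nonneg hq _)
      (hi j).aestronglyMeasurable, e2, ENNReal.toReal_mul, ENNReal.toReal_natCast,
      mul_div_cancel_left₀ _ (by positivity)]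
    simp only [e]
    exact (ENNReal.tendsto_toReal (fT j)).comp (cv.trp (cv.pw mK mKn fK j) mK (measurable_pw mK j)
      mKn (fun n => measurable_pw (mKn n) j) fK
      (ne_top_of_le_ne_top (ENNReal.pow_ne_top fK) (N2_pw mK j)))

/-- the difference of the traces -/
theorem tr_lim (hW : IsWiener W) (hV : IsOpen V) (hV' : IsOpen V') (hs : V' ⊆ V)
    (fV : volume V ≠ ∞) (h : AI u N φ) (hu : Gp V V' u) :
    IntegrableOn (occL u) {q : ℝ × CL | range q.2 ⊆ V ∧ ¬ range q.2 ⊆ V'} (loopT W) ∧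
    Tendsto (fun n => (gm W V (φ n)).trace - (gm W V' (φ n)).trace) atTop
      (𝓝 (∫ q in {q : ℝ × CL | range q.2 ⊆ V ∧ ¬ range q.2 ⊆ V'}, occL u q ∂loopT W)) := by
  have := hW.prob
  obtain ⟨c, fc, hc⟩ := h.bdd
  have fV' : volume V' ≠ ∞ := ne_top_of_le_ne_top fV (measure_mono hs)
  obtain ⟨δ, δ0, hδ⟩ := hu
  have fu := lint_fin h.cont h.cpt h.u0
  obtain ⟨f1, lim⟩ := one_lim hW hV hV' hs fV h.ak hc fc fu.2 fu.1 (ρ := δ / 8) (by positivity)
    fun x hx y hy => by
      by_contra hy'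
      have := hδ x (subset_tsupport _ fun e => hx (by simp [e])) y ⟨hy.2, hy'⟩
      have := Metric.mem_closedBall'.1 hy.1
      linarith
  have mS : MeasurableSet {γ : Pr | range γ ⊆ V ∧ ¬ range γ ⊆ V'} :=
    (measurableSet_range_open hV).inter (measurableSet_range_open hV').compl
  have e1 := loop_mom hW h.cont h.u0 (S := {s | s ⊆ V ∧ ¬ s ⊆ V'}) mS
    ((measurableSet_range_open hV).inter (measurableSet_range_open hV').compl) 0
  simp only [zero_add, pow_one, pow_zero, mul_one, mem_ofPred_eq, lintegral_indicator_one mS] at e1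
  change _ = ∫⁻ z, ENNReal.ofReal (u z) * ∫⁻ t in Ioi 0, dk W V V' t z z at e1
  rw [← e1] at f1 lim
  have A0 : ∀ᵐ q ∂(loopT W).restrict {q : ℝ × CL | range q.2 ⊆ V ∧ ¬ range q.2 ⊆ V'},
      0 ≤ occL u q := ae_restrict_of_ae (ae_pos.mono fun q hq => (occL_eq h.cont h.u0 hq).1)
  have mA := (measurable_occL h.cont).aestronglyMeasurable
    (μ := (loopT W).restrict {q : ℝ × CL | range q.2 ⊆ V ∧ ¬ range q.2 ⊆ V'})
  refine ⟨⟨mA, (hasFiniteIntegral_iff_ofReal A0).2 f1.lt_top⟩, ?_⟩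
  rw [integral_eq_lintegral_of_nonneg_ae A0 mA]
  refine ((ENNReal.tendsto_toReal f1).comp lim).congr fun n => ?_
  have e : ∀ {D}, IsOpen D → volume D ≠ ∞ → trp (fun p => Gk W D p.1 p.2)
      (pk fun j x => ENNReal.ofReal (φ n j x)) ≠ ∞ ∧ (gm W D (φ n)).trace =
      (trp (fun p => Gk W D p.1 p.2) (pk fun j x => ENNReal.ofReal (φ n j x))).toReal := by
    intro D hD fD
    have k := h.km_fin (meas_Gk hW hD) (N2_Gk hW hD fD) n
    have := toReal_pow k 1
    rw [pow_one, pow_one] at this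
    rw [trp_pk_one (meas_Gk hW hD) (h.measφ n)]
    exact ⟨ENNReal.sum_ne_top.2 fun i _ => k i i, this⟩
  have k := (e hV fV).1
  rw [(e hV fV).2, (e hV' fV').2, trp_Gk hW hV hV' hs (h.ak.meas n)] at *
  rw [ENNReal.toReal_add (ENNReal.add_ne_top.1 k).1 (ENNReal.add_ne_top.1 k).2]
  simp

/-- **Le Jan's identity.** -/
theorem lejan (hW : IsWiener W) (hV : IsOpen V) (hV' : IsOpen V') (hs : V' ⊆ V)
    (hb : Bornology.IsBounded V) (h : AI u N φ) (hu : Gp V V' u)
    (hM : ∀ n, (gm W V (φ n)).PosSemidef) (hM' : ∀ n, (gm W V' (φ n)).PosSemidef) {l : ℝ}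
    (l0 : 0 ≤ l) : Tendsto (fun n => Real.log (1 + l • gm W V (φ n)).det -
      Real.log (1 + l • gm W V' (φ n)).det) atTop (𝓝 (lam W V V' u l)) := by
  have := hW.prob
  have fV := hb.measure_lt_top (μ := volume).ne
  obtain ⟨i1, a1⟩ := two_lim hW hV fV h hM l0
  obtain ⟨-, a2⟩ := two_lim hW hV' (ne_top_of_le_ne_top fV (measure_mono hs)) h hM' l0
  obtain ⟨i3, a3⟩ := tr_lim hW hV hV' hs fV h hu
  have mA := measurable_occL h.cont
  have m' : MeasurableSet {q : ℝ × CL | range q.2 ⊆ V'} :=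
    measurable_snd (measurableSet_range_open hV')
  have sub : {q : ℝ × CL | range q.2 ⊆ V'} ⊆ {q | range q.2 ⊆ V} := fun q hq => subset_trans hq hs
  have e := integral_inter_add_sdiff m' i1
  rw [inter_eq_right.2 sub] at e
  have A0 : ∀ᵐ q ∂(loopT W).restrict {q : ℝ × CL | range q.2 ⊆ V ∧ ¬ range q.2 ⊆ V'},
      0 ≤ occL u q := ae_restrict_of_ae (ae_pos.mono fun q hq => (occL_eq h.cont h.u0 hq).1)
  have i2 := i1.mono_set (s := {q : ℝ × CL | range q.2 ⊆ V ∧ ¬ range q.2 ⊆ V'}) fun q hq => hq.1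
  have e2 : lam W V V' u l =
      l * (∫ q in {q : ℝ × CL | range q.2 ⊆ V ∧ ¬ range q.2 ⊆ V'}, occL u q ∂loopT W) -
        ∫ q in {q : ℝ × CL | range q.2 ⊆ V ∧ ¬ range q.2 ⊆ V'},
          (Real.exp (-l * occL u q) - 1 + l * occL u q) ∂loopT W := by
    rw [lam, ← integral_eq_lintegral_of_nonneg_ae (A0.mono fun q hq => sub_nonneg.2
      (Real.exp_le_one_iff.2 (by nlinarith))) (Measurable.aestronglyMeasurable (by fun_prop)),
      ← integral_const_mul, ← integral_sub (i3.const_mul l) i2]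
    exact integral_congr_ae (Eventually.of_forall fun q => by ring)
  rw [← e] at a1
  convert! ((a3.const_mul l).sub a1).add a2 using 2
  · ring
  · rw [e2, ← sub_sub, sub_right_comm, sub_add_cancel]; rfl

end

end Vale.Agent.P155.LJ
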