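import Mathlib

/-!
# P155: from convergence of moments to convergence of regularised determinants
-/

namespace Vale.Agent.P155.LJ

open MeasureTheory Set Filter Topology
open scoped Nat

/-- bounded families with Taylor expansions of radius `1 / C` at every point -/
def Tay (C : ℝ) (c : ℕ → ℝ → ℝ) : Prop :=
  (∀ j l, 0 ≤ l → |c j l| ≤ C ^ (j + 2)) ∧ ∀ j l h, 0 ≤ l → 0 ≤ h → h * C < 1 →
    HasSum (fun i : ℕ => ((i + (j + 1)).choose (j + 1) : ℝ) * (-h) ^ i * c (i + j) l) (c j (l + h))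

theorem tay_sum {C h : ℝ} (hC : 0 ≤ C) (h0 : 0 ≤ h) (h1 : h * C < 1) (j : ℕ) :
    Summable fun i : ℕ => ((i + (j + 1)).choose (j + 1) : ℝ) * h ^ i * C ^ (i + j + 2) := by
  have := (hasSum_choose_mul_geometric_of_norm_lt_one (𝕜 := ℝ) (j + 1) (r := h * C)
    (by rwa [Real.norm_eq_abs, abs_of_nonneg (by positivity)])).summable.mul_right (C ^ (j + 2))
  refine this.congr fun i => ?_
  rw [mul_pow]; ring

theorem tay_step {C : ℝ} (hC : 0 < C) {c : ℕ → ℕ → ℝ → ℝ} {c' : ℕ → ℝ → ℝ}
    (hc : ∀ n, Tay C (c n)) (hc' : Tay C c')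
    (h0 : ∀ j, Tendsto (fun n => c n j 0) atTop (𝓝 (c' j 0))) {l : ℝ} (hl : 0 ≤ l) (j : ℕ) :
    Tendsto (fun n => c n j l) atTop (𝓝 (c' j l)) := by
  have key : ∀ m : ℕ, ∀ l, 0 ≤ l → l ≤ m * (2 * C)⁻¹ → ∀ j,
      Tendsto (fun n => c n j l) atTop (𝓝 (c' j l)) := by
    intro m
    induction m with
    | zero =>
      intro l h1 h2 j
      have : l = 0 := le_antisymm (by simpa using h2) h1
      rw [this]; exact h0 j
    | succ m ih =>
      intro l h1 h2 j
      rcases le_total l (m * (2 * C)⁻¹) with h3 | h3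
      · exact ih l h1 h3 j
      set l0 : ℝ := m * (2 * C)⁻¹ with hl0
      have p0 : 0 ≤ l0 := by positivity
      have ph : 0 ≤ l - l0 := by linarith
      have ph1 : (l - l0) * C < 1 := by
        have : l - l0 ≤ (2 * C)⁻¹ := by push_cast at h2; linarith
        calc (l - l0) * C ≤ (2 * C)⁻¹ * C := by gcongr
          _ = 1 / 2 := by field_simp
          _ < 1 := by norm_num
      have e : l = l0 + (l - l0) := by ring
      rw [e]
      simp only [← ((hc _).2 j l0 _ p0 ph ph1).tsum_eq, ← (hc'.2 j l0 _ p0 ph ph1).tsum_eq]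
      refine tendsto_tsum_of_dominated_convergence (tay_sum hC.le ph ph1 j)
        (fun i => (ih l0 p0 le_rfl _).const_mul _) (Eventually.of_forall fun n i => ?_)
      rw [norm_mul, norm_mul, norm_pow, norm_neg, Real.norm_natCast, Real.norm_eq_abs,
        Real.norm_eq_abs, abs_of_nonneg ph]
      gcongr
      exact (hc n).1 _ _ p0
  obtain ⟨m, hm⟩ := exists_nat_ge (l * (2 * C))
  exact key m l hl (by rw [← div_eq_mul_inv, le_div_iff₀ (by positivity)]; exact hm) j

theorem tay_ev {ι : Type} [Fintype ι] {ev : ι → ℝ} (h0 : ∀ i, 0 ≤ ev i) {C : ℝ} (hC : 0 < C)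
    (hb : ∀ j, ∑ i, ev i ^ (j + 2) ≤ C ^ (j + 2)) :
    Tay C fun j l => ∑ i, (ev i / (1 + l * ev i)) ^ (j + 2) := by
  have hle : ∀ l, 0 ≤ l → ∀ i, 0 ≤ ev i / (1 + l * ev i) ∧ ev i / (1 + l * ev i) ≤ ev i := by
    intro l hl i
    have := mul_nonneg hl (h0 i)
    exact ⟨div_nonneg (h0 i) (by linarith), div_le_self (h0 i) (by linarith)⟩
  have hev : ∀ i, ev i ≤ C := fun i => by
    have := (Finset.single_le_sum (f := fun i => ev i ^ (0 + 2)) (fun i _ => pow_nonneg (h0 i) _)
      (Finset.mem_univ i)).trans (hb 0)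
    exact (pow_le_pow_iff_left₀ (h0 i) hC.le (by norm_num)).1 this
  refine ⟨fun j l hl => ?_, fun j l h hl hh h1 => ?_⟩
  · rw [abs_of_nonneg (Finset.sum_nonneg fun i _ => pow_nonneg (hle l hl i).1 _)]
    exact (Finset.sum_le_sum fun i _ => pow_le_pow_left₀ (hle l hl i).1 (hle l hl i).2 _).trans
      (hb j)
  simp only [Finset.mul_sum]
  refine hasSum_sum fun i _ => ?_
  set x := ev i / (1 + l * ev i) with hx
  have x0 := (hle l hl i).1
  have x1 : h * x < 1 := (mul_le_mul_of_nonneg_left ((hle l hl i).2.trans (hev i)) hh).trans_lt h1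
  have := (hasSum_choose_mul_geometric_of_norm_lt_one (𝕜 := ℝ) (j + 1) (r := -h * x)
    (by rw [Real.norm_eq_abs, neg_mul, abs_neg, abs_of_nonneg (by positivity)]; exact x1)).mul_right
    (x ^ (j + 2))
  convert! this using 1
  · funext m; rw [mul_pow]; ring
  · have p1 := mul_nonneg hl (h0 i)
    have p2 := mul_nonneg hh (h0 i)
    rw [div_mul_eq_mul_div, one_mul, ← div_pow]
    congr 1
    have p3 : 1 + (l + h) * ev i ≠ 0 := by nlinarith
    have p4 : 1 + l * ev i ≠ 0 := by linarith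
    have e : 1 - -h * x = (1 + (l + h) * ev i) / (1 + l * ev i) := by
      rw [hx, eq_div_iff p4, sub_mul, mul_assoc, div_mul_cancel₀ _ p4]; ring
    rw [e, hx, div_div_div_cancel_right₀ p4]

section
variable {Ω : Type*} [MeasurableSpace Ω] {μ : Measure Ω} {A : Ω → ℝ}

theorem int_exp (hA : Measurable A) (h0 : ∀ᵐ ω ∂μ, 0 ≤ A ω) {k : ℕ}
    (hi : Integrable (fun ω => A ω ^ k) μ) {l : ℝ} (hl : 0 ≤ l) :
    Integrable (fun ω => A ω ^ k * Real.exp (-l * A ω)) μ ∧
      ∫ ω, ‖A ω ^ k * Real.exp (-l * A ω)‖ ∂μ ≤ ∫ ω, A ω ^ k ∂μ := by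
  have hb : ∀ᵐ ω ∂μ, ‖A ω ^ k * Real.exp (-l * A ω)‖ ≤ A ω ^ k := by
    filter_upwards [h0] with ω h
    rw [Real.norm_eq_abs, abs_of_nonneg (by positivity)]
    refine mul_le_of_le_one_right (by positivity) (Real.exp_le_one_iff.2 ?_)
    nlinarith
  have := hi.mono' (by fun_prop) hb
  exact ⟨this, integral_mono_ae this.norm hi hb⟩

theorem tay_int (hA : Measurable A) (h0 : ∀ᵐ ω ∂μ, 0 ≤ A ω) {C : ℝ} (hC : 0 < C)
    (hi : ∀ j, Integrable (fun ω => A ω ^ (j + 2)) μ)
    (hb : ∀ j, (∫ ω, A ω ^ (j + 2) ∂μ) / (j + 1)! ≤ C ^ (j + 2)) :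
    Tay C fun j l => (∫ ω, A ω ^ (j + 2) * Real.exp (-l * A ω) ∂μ) / (j + 1)! := by
  have hn : ∀ j l, 0 ≤ l →
      (∫ ω, ‖A ω ^ (j + 2) * Real.exp (-l * A ω)‖ ∂μ) / (j + 1)! ≤ C ^ (j + 2) := fun j l hl =>
    (div_le_div_of_nonneg_right (int_exp hA h0 (hi j) hl).2 (by positivity)).trans (hb j)
  refine ⟨fun j l hl => ?_, fun j l h hl hh h1 => ?_⟩
  · rw [abs_div, Nat.abs_cast]
    refine le_trans (div_le_div_of_nonneg_right ?_ (by positivity)) (hn j l hl)
    exact norm_integral_le_integral_norm (fun ω => A ω ^ (j + 2) * Real.exp (-l * A ω))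
  have := hasSum_integral_of_summable_integral_norm (μ := μ)
    (F := fun (i : ℕ) ω => ((i + (j + 1)).choose (j + 1) : ℝ) * (-h) ^ i *
      (A ω ^ (i + j + 2) * Real.exp (-l * A ω) / (i + j + 1)!))
    (fun i => ((int_exp hA h0 (hi (i + j)) hl).1.div_const _).const_mul _)
    (Summable.of_nonneg_of_le (fun i => integral_nonneg fun ω => norm_nonneg _) (fun i => ?_)
      (tay_sum hC.le hh h1 j))
  · convert! this using 1
    · funext i; rw [integral_const_mul, integral_div]
    · dsimp only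
      rw [← integral_div]
      refine integral_congr_ae (Eventually.of_forall fun ω => ?_)
      have h2 := (NormedSpace.expSeries_div_hasSum_exp (-h * A ω)).mul_right
        (A ω ^ (j + 2) * Real.exp (-l * A ω) / (j + 1)!)
      rw [← Real.exp_eq_exp_ℝ] at h2
      have e : A ω ^ (j + 2) * Real.exp (-(l + h) * A ω) / (j + 1)! =
          Real.exp (-h * A ω) * (A ω ^ (j + 2) * Real.exp (-l * A ω) / (j + 1)!) := by
        rw [show -(l + h) * A ω = -h * A ω + -l * A ω by ring, Real.exp_add]; ring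
      dsimp only
      rw [e, ← h2.tsum_eq]
      refine tsum_congr fun i => ?_
      have e2 : (((i + j + 1)! : ℕ) : ℝ) = ((i + (j + 1)).choose (j + 1) : ℝ) * i ! * (j + 1)! := by
        exact_mod_cast (Nat.add_choose_mul_factorial_mul_factorial i (j + 1)).symm
      have p : ((i + (j + 1)).choose (j + 1) : ℝ) ≠ 0 :=
        Nat.cast_ne_zero.2 (Nat.choose_pos (by omega)).ne'
      rw [e2, mul_pow]; field_simp; ring
  · simp only [norm_mul, norm_div, norm_pow, norm_neg, Real.norm_natCast]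
    rw [integral_const_mul, integral_div, Real.norm_eq_abs, abs_of_nonneg hh]
    gcongr
    simpa only [norm_mul, norm_pow] using hn (i + j) l hl

end

theorem ftc_ev {a l : ℝ} (ha : 0 ≤ a) (hl : 0 ≤ l) :
    ∫ r in (0 : ℝ)..l, (l - r) * (a / (1 + r * a)) ^ 2 = l * a - Real.log (1 + l * a) := by
  have hp : ∀ r ∈ uIcc 0 l, 1 + r * a ≠ 0 := fun r hr => by
    rw [uIcc_of_le hl] at hr
    have := mul_nonneg hr.1 ha
    linarith
  rw [intervalIntegral.integral_eq_sub_of_hasDerivAt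
    (f := fun r => -(1 + l * a) * (1 + r * a)⁻¹ - Real.log (1 + r * a))]
  · have := hp l right_mem_uIcc
    simp only [zero_mul, add_zero, Real.log_one]; field_simp; ring
  · intro r hr
    have h1 : HasDerivAt (fun r => 1 + r * a) a r := by
      simpa using ((hasDerivAt_id r).mul_const a).const_add 1
    have := hp r hr
    refine (((h1.inv this).const_mul (-(1 + l * a))).sub (h1.log this)).congr_deriv ?_
    field_simp; ring
  · refine ContinuousOn.intervalIntegrable ?_
    exact (by fun_prop : ContinuousOn (fun r => l - r) _).mul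
      ((continuousOn_const.div (by fun_prop) hp).pow 2)

theorem ftc_exp (a l : ℝ) : ∫ r in (0 : ℝ)..l, (l - r) * (a ^ 2 * Real.exp (-r * a)) =
    Real.exp (-l * a) - 1 + l * a := by
  rw [intervalIntegral.integral_eq_sub_of_hasDerivAt
    (f := fun r => -(l - r) * a * Real.exp (-r * a) + Real.exp (-r * a))]
  · simp; ring
  · intro r _
    have h1 : HasDerivAt (fun r => Real.exp (-r * a)) (Real.exp (-r * a) * (-a)) r := by
      simpa using ((hasDerivAt_id r).neg.mul_const a).exp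
    have h2 : HasDerivAt (fun r => -(l - r) * a) a r := by
      simpa using (((hasDerivAt_id r).const_sub l).neg.mul_const a)
    refine ((h2.mul h1).add h1).congr_deriv ?_
    ring
  · exact Continuous.intervalIntegrable (by fun_prop) _ _

theorem mom {ι : ℕ → Type} [∀ n, Fintype (ι n)] {ev : ∀ n, ι n → ℝ} (h0 : ∀ n i, 0 ≤ ev n i)
    {C : ℝ} (hC : 0 < C) (hb : ∀ n j, ∑ i, ev n i ^ (j + 2) ≤ C ^ (j + 2))
    {Ω : Type*} [MeasurableSpace Ω] {μ : Measure Ω} [SFinite μ] {A : Ω → ℝ} (hA : Measurable A)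
    (hA0 : ∀ᵐ ω ∂μ, 0 ≤ A ω) (hi : ∀ j, Integrable (fun ω => A ω ^ (j + 2)) μ)
    (hl : ∀ j, Tendsto (fun n => ∑ i, ev n i ^ (j + 2)) atTop
      (𝓝 ((∫ ω, A ω ^ (j + 2) ∂μ) / (j + 1)!))) {l : ℝ} (l0 : 0 ≤ l) :
    Tendsto (fun n => ∑ i, (l * ev n i - Real.log (1 + l * ev n i))) atTop
      (𝓝 (∫ ω, (Real.exp (-l * A ω) - 1 + l * A ω) ∂μ)) := by
  have T1 := fun n => tay_ev (h0 n) hC (hb n)
  have T2 := tay_int hA hA0 hC hi fun j => le_of_tendsto' (hl j) fun n => hb n j
  have T := fun r (hr : 0 ≤ r) => tay_step hC T1 T2 (fun j => by simpa using hl j) hr 0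
  have e1 : ∀ n, ∑ i, (l * ev n i - Real.log (1 + l * ev n i)) =
      ∫ r in (0 : ℝ)..l, (l - r) * ∑ i, (ev n i / (1 + r * ev n i)) ^ (0 + 2) := by
    intro n
    simp only [Finset.mul_sum]
    rw [intervalIntegral.integral_finsetSum]
    · exact Finset.sum_congr rfl fun i _ => (ftc_ev (h0 n i) l0).symm
    · intro i _
      refine ContinuousOn.intervalIntegrable ?_
      refine (by fun_prop : ContinuousOn (fun r => l - r) _).mul
        ((continuousOn_const.div (by fun_prop) fun r hr => ?_).pow _)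
      rw [uIcc_of_le l0] at hr
      have := mul_nonneg hr.1 (h0 n i)
      linarith
  have e2 : ∫ ω, (Real.exp (-l * A ω) - 1 + l * A ω) ∂μ = ∫ r in (0 : ℝ)..l, (l - r) *
      ((∫ ω, A ω ^ (0 + 2) * Real.exp (-r * A ω) ∂μ) / (0 + 1)!) := by
    simp only [← ftc_exp, zero_add, Nat.factorial_one, Nat.cast_one, div_one, ← integral_const_mul]
    rw [intervalIntegral_integral_swap]
    rw [uIoc_of_le l0]
    refine (((hi 0).comp_snd (volume.restrict (Ioc 0 l))).const_mul l).mono'
      (Measurable.aestronglyMeasurable (by unfold Function.uncurry; fun_prop)) ?_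
    have a1 : ∀ᵐ p ∂(volume.restrict (Ioc 0 l)).prod μ, p.1 ∈ Ioc 0 l :=
      Measure.quasiMeasurePreserving_fst.ae (ae_restrict_mem measurableSet_Ioc)
    filter_upwards [a1, Measure.quasiMeasurePreserving_snd.ae hA0] with p h1 h2
    have h3 : 0 ≤ l - p.1 := by linarith [h1.2]
    have h4 : Real.exp (-p.1 * A p.2) ≤ 1 := Real.exp_le_one_iff.2 (by nlinarith [h1.1])
    simp only [Function.uncurry, zero_add]
    rw [Real.norm_eq_abs, abs_of_nonneg (by positivity)]
    exact mul_le_mul (by linarith [h1.1]) (mul_le_of_le_one_right (by positivity) h4)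
      (by positivity) l0
  simp only [e1, e2]
  refine intervalIntegral.tendsto_integral_filter_of_dominated_convergence
    (fun _ => l * C ^ (0 + 2))
    (Eventually.of_forall fun n => Measurable.aestronglyMeasurable (by fun_prop))
    (Eventually.of_forall fun n => Eventually.of_forall fun r hr => ?_) intervalIntegrable_const
    (Eventually.of_forall fun r hr => ?_)
  · rw [uIoc_of_le l0] at hr
    rw [norm_mul, Real.norm_eq_abs, Real.norm_eq_abs, abs_of_nonneg (by linarith [hr.2])]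
    exact mul_le_mul (by linarith [hr.1]) ((T1 n).1 0 r hr.1.le) (abs_nonneg _) l0
  · rw [uIoc_of_le l0] at hr
    exact (T r hr.1.le).const_mul _

end Vale.Agent.P155.LJ
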