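import Vale.Agent.P155L.Path

/-!
# P155: bounds on killed heat kernels; the first moment
-/

namespace Vale.Agent.P155.LJ

open MeasureTheory Set Filter Topology Vale.Agent.P155.Q1 Vale.Agent.P155.BL
open scoped NNReal ENNReal Nat

noncomputable section

variable {W : Measure Pa} {D V V' : Set ℂ} {U : ℂ → ℝ≥0∞} {u : ℂ → ℝ} {t : ℝ} {x y : ℂ}
  {P : ℕ → ℂ × ℂ → ℝ≥0∞} {c : ℝ≥0∞}

theorem qk_le (hW : IsWiener W) : qk W D t x y ≤ hk t (y - x) :=
  (measure_mono (subset_univ _)).trans_eq (hW.Wb_univ t x y)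

theorem qk_zero (hD : IsOpen D) (ht : 0 < t) (h : ¬ (x ∈ D ∧ y ∈ D)) : qk W D t x y = 0 := by
  have m := measurableSet_range_open (X := ℝ) hD
  refine measure_eq_zero_iff_ae_notMem.2 (ae_Wb (p := fun γ => γ ∉ {γ : Pr | range γ ⊆ D}) m.compl
    (Eventually.of_forall fun ω hω => h ⟨hω ⟨0, br_of_nonpos le_rfl⟩, hω ⟨t, br_of_ge ht le_rfl⟩⟩))

theorem qk_far (hW : IsWiener W) (hD : IsOpen D) (ht : 0 < t) :
    qk W D t x y ≤ volume D * ENNReal.ofReal (t ^ (-2 : ℝ)) := by
  have h2 := half_pos ht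
  rw [← add_halves t, qk_add hW hD h2 h2, add_halves, mul_comm,
    ← lintegral_indicator_const hD.measurableSet]
  refine lintegral_mono fun z => ?_
  by_cases hz : z ∈ D
  · rw [indicator_of_mem hz]
    refine (mul_le_mul' ((qk_le hW).trans (hk_le h2 _)) ((qk_le hW).trans (hk_le h2 _))).trans ?_
    rw [hk_zero, ← ENNReal.ofReal_mul (by positivity), Real.rpow_neg ht.le, Real.rpow_two,
      ← mul_inv]
    refine ENNReal.ofReal_le_ofReal (inv_anti₀ (by positivity) ?_)
    have : t ≤ 2 * Real.pi * (t / 2) := by nlinarith [Real.pi_gt_three]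
    nlinarith
  · simp [qk_zero hD h2 (x := x) (y := z) fun h => hz h.2]

theorem N2_qk (hW : IsWiener W) (hD : IsOpen D) (ht : 0 < t) :
    (N2 fun p => qk W D t p.1 p.2) ≤ volume D * ENNReal.ofReal t⁻¹ := by
  rw [N2_eq (meas_qk hW hD measurable_const measurable_fst measurable_snd), mul_comm,
    ← lintegral_indicator_const hD.measurableSet]
  refine lintegral_mono fun x => ?_
  by_cases hx : x ∈ D
  · rw [indicator_of_mem hx, ← mul_one (ENNReal.ofReal _), ← lintegral_hk ht,
      ← lintegral_sub_right_eq_self (fun y => hk t y) x,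
      ← lintegral_const_mul' _ _ ENNReal.ofReal_ne_top]
    refine lintegral_mono fun y => ?_
    rw [pow_two]
    have h1 : qk W D t x y ≤ hk t (y - x) := qk_le hW
    refine mul_le_mul' (h1.trans ((hk_le ht _).trans ?_)) h1
    rw [hk_zero]
    refine ENNReal.ofReal_le_ofReal (inv_anti₀ ht ?_)
    nlinarith [Real.pi_gt_three]
  · simp [fun y => qk_zero hD ht (W := W) (x := x) (y := y) fun h => hx h.1]

theorem fin_I : ∫⁻ s in Ioc (0 : ℝ) 1, ENNReal.ofReal (s ^ (-1 / 2 : ℝ)) ≠ ∞ :=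
  (intervalIntegral.intervalIntegrable_rpow' (by norm_num)).1.lintegral_lt_top.ne

theorem fin_J : ∫⁻ s in Ioi (1 : ℝ), ENNReal.ofReal (s ^ (-2 : ℝ)) ≠ ∞ :=
  (integrableOn_Ioi_rpow_of_lt (by norm_num) one_pos).lintegral_lt_top.ne

theorem lint_Ioi (f : ℝ → ℝ≥0∞) :
    ∫⁻ t in Ioi 0, f t = (∫⁻ t in Ioc 0 1, f t) + ∫⁻ t in Ioi 1, f t := by
  rw [← lintegral_union measurableSet_Ioi Ioc_disjoint_Ioi_same, Ioc_union_Ioi_eq_Ioi zero_le_one]

theorem N2_Gk (hW : IsWiener W) (hD : IsOpen D) (fD : volume D ≠ ∞) :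
    (N2 fun p => Gk W D p.1 p.2) ≠ ∞ := by
  have m : Measurable fun a : (ℂ × ℂ) × ℝ => qk W D a.2 a.1.1 a.1.2 :=
    meas_qk hW hD measurable_snd (by fun_prop) (by fun_prop)
  have I := fin_I
  have J := fin_J
  simp only [Gk, lint_Ioi]
  refine ne_top_of_le_ne_top ?_ (N2_add m.lintegral_prod_right' m.lintegral_prod_right')
  refine ENNReal.add_ne_top.2 ⟨ENNReal.mul_ne_top (by simp) ?_, ENNReal.mul_ne_top (by simp) ?_⟩
  · refine ne_top_of_le_ne_top (ENNReal.mul_ne_top I (ENNReal.mul_ne_top fD I)) ?_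
    have m2 : Measurable fun a : (ℂ × ℂ) × ℝ =>
        ENNReal.ofReal (a.2 ^ (1 / 2 : ℝ)) * qk W D a.2 a.1.1 a.1.2 ^ 2 := by fun_prop
    calc _ ≤ ∫⁻ p : ℂ × ℂ, (∫⁻ s in Ioc (0 : ℝ) 1, ENNReal.ofReal (s ^ (-1 / 2 : ℝ))) *
          ∫⁻ s in Ioc (0 : ℝ) 1, ENNReal.ofReal (s ^ (1 / 2 : ℝ)) * qk W D s p.1 p.2 ^ 2 := by
          refine lintegral_mono fun p => ?_
          have m1 : Measurable fun s => qk W D s p.1 p.2 :=
            meas_qk hW hD measurable_id measurable_const measurable_const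
          refine le_trans (le_of_eq ?_) ((cs (μ := volume.restrict (Ioc (0 : ℝ) 1))
            (f := fun s => ENNReal.ofReal (s ^ (-1 / 4 : ℝ)))
            (g := fun s => ENNReal.ofReal (s ^ (1 / 4 : ℝ)) * qk W D s p.1 p.2) (by fun_prop)
            (by fun_prop)).trans (le_of_eq ?_))
          · congr 1
            refine setLIntegral_congr_fun measurableSet_Ioc fun s hs => ?_
            rw [← mul_assoc, ← ENNReal.ofReal_mul (Real.rpow_nonneg hs.1.le _),
              ← Real.rpow_add hs.1]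
            norm_num
          · congr 1 <;> refine setLIntegral_congr_fun measurableSet_Ioc fun s hs => ?_
            · rw [← ENNReal.ofReal_pow (Real.rpow_nonneg hs.1.le _), ← Real.rpow_natCast,
                ← Real.rpow_mul hs.1.le]
              norm_num
            · rw [mul_pow, ← ENNReal.ofReal_pow (Real.rpow_nonneg hs.1.le _), ← Real.rpow_natCast,
                ← Real.rpow_mul hs.1.le]
              norm_num
      _ ≤ _ := by
          rw [lintegral_const_mul' _ _ I, lintegral_lintegral_swap m2.aemeasurable,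
            ← lintegral_const_mul' _ _ fD]
          refine mul_le_mul_right (setLIntegral_mono' measurableSet_Ioc fun s hs => ?_) _
          rw [lintegral_const_mul' _ _ ENNReal.ofReal_ne_top]
          refine (mul_le_mul_right (N2_qk hW hD hs.1) _).trans (le_of_eq ?_)
          rw [mul_left_comm, ← ENNReal.ofReal_mul (Real.rpow_nonneg hs.1.le _),
            ← Real.rpow_neg_one, ← Real.rpow_add hs.1]
          norm_num
  · refine ne_top_of_le_ne_top (ENNReal.mul_ne_top (ENNReal.pow_ne_top (n := 2)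
      (ENNReal.mul_ne_top fD J)) (ENNReal.mul_ne_top fD fD)) ?_
    rw [← Measure.prod_prod, ← lintegral_indicator_const (hD.measurableSet.prod hD.measurableSet)]
    refine lintegral_mono fun p => ?_
    by_cases hp : p ∈ D ×ˢ D
    · rw [indicator_of_mem hp, ← lintegral_const_mul' _ _ fD]
      exact pow_le_pow_left' (setLIntegral_mono' measurableSet_Ioi fun s hs =>
        qk_far hW hD (one_pos.trans hs)) 2
    · have : ∫⁻ t in Ioi 1, qk W D t p.1 p.2 = ∫⁻ t in Ioi (1 : ℝ), 0 :=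
        setLIntegral_congr_fun measurableSet_Ioi fun s hs => qk_zero hD (one_pos.trans hs) hp
      simp [this]

theorem trp_assoc {K L M : ℂ × ℂ → ℝ≥0∞} (hK : Measurable K) (hL : Measurable L)
    (hM : Measurable M) : trp (cmp K L) M = trp K (cmp L M) := by
  rw [trp_eq (by fun_prop) hM, trp_eq hK (by fun_prop)]
  refine lintegral_congr fun x => ?_
  calc _ = ∫⁻ y, ∫⁻ z, K (x, z) * L (z, y) * M (y, x) :=
        lintegral_congr fun y => (lintegral_mul_const _ (by fun_prop)).symm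
    _ = ∫⁻ z, ∫⁻ y, K (x, z) * L (z, y) * M (y, x) := lintegral_lintegral_swap (by fun_prop)
    _ = _ := lintegral_congr fun z => by
        simp only [mul_assoc]
        exact lintegral_const_mul _ (by fun_prop)

theorem trp_qk (hW : IsWiener W) (hD : IsOpen D) (fD : volume D ≠ ∞) (h : AK U P)
    (hc : ∀ x, U x ≤ c) (fc : c ≠ ∞) (fU : ∫⁻ y, U y ^ 2 ≠ ∞) (ht : 0 < t) :
    (∀ n, trp (fun p => qk W D t p.1 p.2) (P n) ≠ ∞) ∧ ∫⁻ z, U z * qk W D t z z ≠ ∞ ∧
      Tendsto (fun n => trp (fun p => qk W D t p.1 p.2) (P n)) atTop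
        (𝓝 (∫⁻ z, U z * qk W D t z z)) := by
  have h2 := half_pos ht
  have mU := h.mU
  set a : ℂ × ℂ → ℝ≥0∞ := fun p => qk W D (t / 2) p.1 p.2
  have m : Measurable a := meas_qk hW hD measurable_const measurable_fst measurable_snd
  have fa : N2 a ≠ ∞ := ne_top_of_le_ne_top (ENNReal.mul_ne_top fD ENNReal.ofReal_ne_top)
    (N2_qk hW hD h2)
  have e : (fun p : ℂ × ℂ => qk W D t p.1 p.2) = cmp a a := funext fun p => by
    rw [← add_halves t, qk_add hW hD h2 h2]; rfl
  have e2 : ∫⁻ z, U z * qk W D t z z = trp a fun p => a p * U p.2 := by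
    rw [trp_eq m (by fun_prop)]
    refine lintegral_congr fun z => ?_
    rw [congrFun e (z, z), cmp, mul_comm, ← lintegral_mul_const _ (by fun_prop)]
    simp only [mul_assoc]
  have fc2 := ENNReal.mul_ne_top (ENNReal.pow_ne_top (n := 2) fc) fa
  simp only [e, e2, trp_assoc m m (h.meas _)]
  refine ⟨fun n => trp_ne_top m (measurable_cmp m (h.meas n)) fa
    (ne_top_of_le_ne_top fc2 (h.schur hc m n)), trp_ne_top m (by fun_prop) fa
    (ne_top_of_le_ne_top fc2 (N2_mul hc m)), Cv.trp (by simp [Cv, N2, sd]) (h.cv hc fc fU m fa) m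
    (by fun_prop) (fun _ => m) (fun n => measurable_cmp m (h.meas n)) fa
    (ne_top_of_le_ne_top fc2 (N2_mul hc m))⟩

/-- bridges in `V` which leave `V'` -/
def dk (W : Measure Pa) (V V' : Set ℂ) (t : ℝ) (x y : ℂ) : ℝ≥0∞ :=
  Wb W t x y {γ | range γ ⊆ V ∧ ¬ range γ ⊆ V'}

theorem qk_eq_add (hV' : IsOpen V') (h : V' ⊆ V) :
    qk W V t x y = qk W V' t x y + dk W V V' t x y := by
  have : {γ : Pr | range γ ⊆ V'} ⊆ {γ | range γ ⊆ V} := fun γ hγ => subset_trans hγ h
  rw [qk, qk, dk, ← measure_inter_add_sdiff _ (measurableSet_range_open (X := ℝ) hV'),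
    inter_eq_right.2 this]
  rfl

theorem meas_dk (hW : IsWiener W) (hV : IsOpen V) (hV' : IsOpen V') {α : Type*}
    [MeasurableSpace α] {T : α → ℝ} {X Y : α → ℂ} (hT : Measurable T) (hX : Measurable X)
    (hY : Measurable Y) : Measurable fun a => dk W V V' (T a) (X a) (Y a) := by
  have := hW.prob
  have m : MeasurableSet {γ : Pr | range γ ⊆ V ∧ ¬ range γ ⊆ V'} :=
    (measurableSet_range_open hV).inter (measurableSet_range_open hV').compl
  simp only [dk, ← lintegral_indicator_one m]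
  exact meas_Wb (F := fun p => {γ : Pr | range γ ⊆ V ∧ ¬ range γ ⊆ V'}.indicator 1 p.2)
    ((measurable_one.indicator m).comp measurable_snd) hT hX hY

theorem dk_near (hW : IsWiener W) (hV : IsOpen V) (hV' : IsOpen V') {ρ : ℝ} (hρ : 0 < ρ)
    (hx : Metric.closedBall x (4 * ρ) ∩ V ⊆ V') (hy : dist y x ≤ 2 * ρ) (ht : 0 < t) :
    dk W V V' t x y ≤ ENNReal.ofReal (16 / ρ ^ 2) := by
  have m : MeasurableSet {γ : Pr | range γ ⊆ V ∧ ¬ range γ ⊆ V'} :=
    (measurableSet_range_open hV).inter (measurableSet_range_open hV').compl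
  rw [dk, Wb, Measure.smul_apply, Measure.map_apply (by fun_prop) m, smul_eq_mul]
  refine (mul_le_mul' (hk_le ht _) ((measure_mono fun ω hω => ?_).trans
    (hW.sup_tail ht hρ.le))).trans ?_
  · by_contra h'
    simp only [mem_ofPred_eq, not_exists, not_and, not_lt] at h'
    refine hω.2 (range_subset_iff.2 fun s => hx ⟨?_, hω.1 ⟨s, rfl⟩⟩)
    have h1 : ‖bm 0 ω (min s t)‖ ≤ ρ := by
      rcases le_total (min s t) 0 with h | h
      · rw [bm_of_nonpos h, norm_zero]; exact hρ.le
      · exact h' _ ⟨h, min_le_right _ _⟩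
    have h2 := h' t ⟨ht.le, le_rfl⟩
    have h3 := fr_mem ht s
    rw [mem_closedBall_iff_norm, br_apply, bm_add x ω (min s t), bm_add x ω t,
      show x + bm 0 ω (min s t) + fr t s * (y - (x + bm 0 ω t)) - x =
        bm 0 ω (min s t) + fr t s * ((y - x) - bm 0 ω t) by ring]
    refine (norm_add_le _ _).trans ?_
    rw [norm_mul, Complex.norm_real, Real.norm_of_nonneg h3.1]
    have h4 := norm_sub_le (y - x) (bm 0 ω t)
    rw [dist_eq_norm] at hy
    nlinarith [h3.1, h3.2, norm_nonneg (y - x - bm 0 ω t)]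
  · rw [hk_zero, ← ENNReal.ofReal_mul (by positivity)]
    refine ENNReal.ofReal_le_ofReal ?_
    have h1 : Real.exp (-ρ ^ 2 / (4 * t)) ≤ 4 * t / ρ ^ 2 := by
      rw [neg_div, Real.exp_neg, ← inv_div (ρ ^ 2)]
      exact inv_anti₀ (by positivity) (by linarith [Real.add_one_le_exp (ρ ^ 2 / (4 * t))])
    have h2 : (2 * Real.pi * t)⁻¹ ≤ t⁻¹ := inv_anti₀ ht (by nlinarith [Real.pi_gt_three])
    calc _ ≤ t⁻¹ * (4 * (4 * t / ρ ^ 2)) := by gcongr
      _ = _ := by field_simp; norm_num

theorem trp_Gk (hW : IsWiener W) (hV : IsOpen V) (hV' : IsOpen V') (hs : V' ⊆ V)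
    {M : ℂ × ℂ → ℝ≥0∞} (hM : Measurable M) : trp (fun p => Gk W V p.1 p.2) M =
      trp (fun p => Gk W V' p.1 p.2) M + ∫⁻ t in Ioi 0, trp (fun p => dk W V V' t p.1 p.2) M := by
  have m1 : Measurable fun a : (ℂ × ℂ) × ℝ => dk W V V' a.2 a.1.1 a.1.2 :=
    meas_dk hW hV hV' measurable_snd (by fun_prop) (by fun_prop)
  have := meas_Gk hW hV'
  simp only [trp]
  rw [← lintegral_lintegral_swap (f := fun (p : ℂ × ℂ) t => dk W V V' t p.1 p.2 * M p.swap)
    (by fun_prop), ← lintegral_add_left (by fun_prop)]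
  refine lintegral_congr fun p => ?_
  rw [lintegral_mul_const _ (meas_dk hW hV hV' measurable_id' measurable_const measurable_const),
    ← add_mul, Gk, Gk, ← lintegral_add_left
      (meas_qk hW hV' measurable_id' measurable_const measurable_const)]
  simp only [qk_eq_add hV' hs]

theorem one_lim (hW : IsWiener W) (hV : IsOpen V) (hV' : IsOpen V') (hs : V' ⊆ V)
    (fV : volume V ≠ ∞) (h : AK U P) (hc : ∀ x, U x ≤ c) (fc : c ≠ ∞) (fU : ∫⁻ y, U y ^ 2 ≠ ∞)
    (fU1 : ∫⁻ y, U y ≠ ∞) {ρ : ℝ} (hρ : 0 < ρ)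
    (hb : ∀ x, U x ≠ 0 → Metric.closedBall x (4 * ρ) ∩ V ⊆ V') :
    ∫⁻ z, U z * ∫⁻ t in Ioi 0, dk W V V' t z z ≠ ∞ ∧
      Tendsto (fun n => ∫⁻ t in Ioi 0, trp (fun p => dk W V V' t p.1 p.2) (P n)) atTop
        (𝓝 (∫⁻ z, U z * ∫⁻ t in Ioi 0, dk W V V' t z z)) := by
  have mU := h.mU
  have fV' : volume V' ≠ ∞ := ne_top_of_le_ne_top fV (measure_mono hs)
  let b : ℝ → ℝ≥0∞ := fun t => if t ≤ 1 then ENNReal.ofReal (16 / ρ ^ 2) else
    volume V * ENNReal.ofReal (t ^ (-2 : ℝ))
  have fb : ∫⁻ t in Ioi 0, b t * ∫⁻ y, U y ≠ ∞ := by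
    rw [lintegral_mul_const' _ _ fU1, lint_Ioi,
      setLIntegral_congr_fun measurableSet_Ioc fun t ht => if_pos ht.2,
      setLIntegral_congr_fun measurableSet_Ioi fun t ht => if_neg (not_le.2 ht),
      lintegral_const_mul' _ _ fV]
    exact ENNReal.mul_ne_top (ENNReal.add_ne_top.2 ⟨by simp, ENNReal.mul_ne_top fV fin_J⟩) fU1
  have hb : ∀ t, 0 < t → ∀ x y, U x ≠ 0 → dist y x ≤ 2 * ρ → dk W V V' t x y ≤ b t := by
    intro t ht x y hx hy
    simp only [b]
    split_ifs
    · exact dk_near hW hV hV' hρ (hb x hx) hy ht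
    · exact (measure_mono fun γ hγ => hγ.1).trans (qk_far hW hV ht)
  have m1 : Measurable fun a : ℂ × ℝ => dk W V V' a.2 a.1 a.1 :=
    meas_dk hW hV hV' measurable_snd measurable_fst measurable_fst
  have e : ∫⁻ z, U z * ∫⁻ t in Ioi 0, dk W V V' t z z =
      ∫⁻ t in Ioi 0, ∫⁻ z, U z * dk W V V' t z z := by
    rw [← lintegral_lintegral_swap (f := fun z t => U z * dk W V V' t z z) (by fun_prop)]
    exact lintegral_congr fun z => (lintegral_const_mul _
      (meas_dk hW hV hV' measurable_id' measurable_const measurable_const)).symm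
  rw [e]
  constructor
  · refine ne_top_of_le_ne_top fb (setLIntegral_mono' measurableSet_Ioi fun t ht => ?_)
    rw [← lintegral_const_mul _ mU]
    refine lintegral_mono fun z => ?_
    by_cases hz : U z = 0
    · simp [hz]
    · rw [mul_comm]; gcongr; exact hb t ht z z hz (by simp; positivity)
  refine tendsto_lintegral_filter_of_dominated_convergence _ (Eventually.of_forall fun n => ?_)
    ?_ fb ((ae_restrict_mem measurableSet_Ioi).mono fun t ht => ?_)
  · have := h.meas n
    have m2 : Measurable fun a : ℝ × ℂ × ℂ => dk W V V' a.1 a.2.1 a.2.2 :=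
      meas_dk hW hV hV' measurable_fst (by fun_prop) (by fun_prop)
    exact Measurable.lintegral_prod_right' (f := fun a : ℝ × ℂ × ℂ =>
      dk W V V' a.1 a.2.1 a.2.2 * P n a.2.swap) (by fun_prop)
  · filter_upwards [tendsto_one_div_add_atTop_nhds_zero_nat.eventually
      (gt_mem_nhds (show 0 < 2 * ρ by positivity))] with n hn
    refine (ae_restrict_mem measurableSet_Ioi).mono fun t ht => ?_
    have := h.meas n
    rw [trp_eq (meas_dk hW hV hV' measurable_const measurable_fst measurable_snd) this,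
      ← lintegral_const_mul _ mU]
    refine lintegral_mono fun x => ?_
    by_cases hx : U x = 0
    · refine (lintegral_mono (g := fun y => ∞ * P n (y, x)) fun y => mul_le_mul_left le_top _).trans ?_
      rw [lintegral_const_mul _ (by fun_prop), h.left, hx]; simp
    rw [← h.left n x, ← lintegral_const_mul _ (by fun_prop)]
    refine lintegral_mono fun y => ?_
    by_cases h0 : P n (y, x) = 0
    · simp [h0]
    · exact mul_le_mul_left (hb t ht x y hx ((h.small n _ h0).trans hn.le)) _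
  · obtain ⟨-, -, a3⟩ := trp_qk hW hV fV h hc fc fU ht
    obtain ⟨b1, b2, b3⟩ := trp_qk hW hV' fV' h hc fc fU ht
    have m := meas_qk hW hV' (measurable_const (a := t)) (measurable_fst (α := ℂ) (β := ℂ))
      measurable_snd
    have m' := meas_qk hW hV' (measurable_const (a := t)) (measurable_id' (α := ℂ)) measurable_id'
    have := ENNReal.Tendsto.sub a3 b3 (.inr b2)
    simp only [qk_eq_add hV' hs, mul_add] at this
    rw [lintegral_add_left (by fun_prop), ENNReal.add_sub_cancel_left b2] at this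
    refine this.congr fun n => ?_
    have := h.meas n
    refine ENNReal.sub_eq_of_eq_add_rev (b1 n) ?_
    simp only [trp, add_mul]
    exact lintegral_add_left (by fun_prop) _

end

end Vale.Agent.P155.LJ
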