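import Vale.Agent.P155L.Defs
import Vale.Agent.P155L.Apx
import Vale.Agent.P155B.Tail

/-!
# P155: moments of occupation integrals under bridge and loop measures
-/

namespace Vale.Agent.P155.LJ

open MeasureTheory Set Filter Topology Vale.Agent.P155.Q1 Vale.Agent.P155.BL
open scoped NNReal ENNReal Nat

noncomputable section

/-- the occupation integral of a path -/
def oc (U : ℂ → ℝ≥0∞) (t : ℝ) (γ : Pr) : ℝ≥0∞ := ∫⁻ s in Ioc 0 t, U (γ s)

/-- moments of the occupation integral under the bridge measure killed outside `D` -/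
def qm (W : Measure Pa) (D : Set ℂ) (U : ℂ → ℝ≥0∞) (k : ℕ) (t : ℝ) (x y : ℂ) : ℝ≥0∞ :=
  ∫⁻ γ, {γ : Pr | range γ ⊆ D}.indicator 1 γ * oc U t γ ^ k ∂Wb W t x y

variable {W : Measure Pa} {D : Set ℂ} {U : ℂ → ℝ≥0∞} {u : ℂ → ℝ} {t s r : ℝ} {x y : ℂ}

@[fun_prop] theorem measurable_oc {α : Type*} [MeasurableSpace α] (hU : Measurable U) {T : α → ℝ}
    {γ : α → Pr} (hT : Measurable T) (hγ : Measurable γ) :
    Measurable fun a => oc U (T a) (γ a) := by
  have m : MeasurableSet {p : α × ℝ | 0 < p.2 ∧ p.2 ≤ T p.1} :=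
    (measurableSet_lt measurable_const measurable_snd).inter
      (measurableSet_le measurable_snd (by fun_prop))
  have := Measurable.lintegral_prod_right' (ν := volume)
    ((by fun_prop : Measurable fun p : α × ℝ => U (γ p.1 p.2)).indicator m)
  simp only [oc, ← lintegral_indicator measurableSet_Ioc]
  exact this

theorem meas_in (hD : IsOpen D) : Measurable ({γ : Pr | range γ ⊆ D}.indicator (1 : Pr → ℝ≥0∞)) :=
  measurable_one.indicator (measurableSet_range_open hD)

theorem meas_qm (hW : IsWiener W) (hD : IsOpen D) (hU : Measurable U) (k : ℕ) {α : Type*}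
    [MeasurableSpace α] {T : α → ℝ} {X Y : α → ℂ} (hT : Measurable T) (hX : Measurable X)
    (hY : Measurable Y) : Measurable fun a => qm W D U k (T a) (X a) (Y a) := by
  have := hW.prob
  have := meas_in hD
  exact meas_Wb (F := fun p => {γ : Pr | range γ ⊆ D}.indicator 1 p.2 * oc U (T p.1) p.2 ^ k)
    (by fun_prop) hT hX hY

theorem qm_zero (hD : IsOpen D) (U : ℂ → ℝ≥0∞) : qm W D U 0 t x y = qk W D t x y := by
  simp only [qm, pow_zero, mul_one, lintegral_indicator_one (measurableSet_range_open hD), qk]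

theorem meas_qk (hW : IsWiener W) (hD : IsOpen D) {α : Type*}
    [MeasurableSpace α] {T : α → ℝ} {X Y : α → ℂ} (hT : Measurable T) (hX : Measurable X)
    (hY : Measurable Y) : Measurable fun a => qk W D (T a) (X a) (Y a) := by
  simp only [← qm_zero hD 0]
  exact meas_qm hW hD measurable_zero 0 hT hX hY

theorem in_split (s : ℝ) (γ : Pr) : {γ : Pr | range γ ⊆ D}.indicator (1 : Pr → ℝ≥0∞) γ =
    {γ : Pr | range γ ⊆ D}.indicator 1 (stp s γ) * {γ : Pr | range γ ⊆ D}.indicator 1 (sft s γ) := by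
  have : range γ ⊆ D ↔ range (stp s γ) ⊆ D ∧ range (sft s γ) ⊆ D := by
    simp only [range_subset_iff, stp_apply, sft_apply]
    refine ⟨fun h => ⟨fun _ => h _, fun _ => h _⟩, fun h r => ?_⟩
    rcases le_total r s with hr | hr
    · simpa [hr] using h.1 r
    · simpa [hr] using h.2 (r - s)
  simp only [indicator, mem_ofPred_eq, this]
  split_ifs <;> simp_all

theorem oc_sft (s t : ℝ) (γ : Pr) : oc U (t - s) (sft s γ) = ∫⁻ r in Ioc s t, U (γ r) := by
  have := (measurePreserving_add_left volume s).setLIntegral_comp_preimage_emb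
    (measurableEmbedding_addLeft s) (fun r => U (γ r)) (Ioc s t)
  rw [← this, preimage_const_add_Ioc, sub_self]
  exact setLIntegral_congr_fun measurableSet_Ioc fun r hr => by simp [hr.1.le]

theorem pow_lint {f : ℝ → ℝ} (hf : Continuous f) (f0 : ∀ s, 0 ≤ f s) (ht : 0 ≤ t) (k : ℕ) :
    (∫⁻ s in Ioc 0 t, ENNReal.ofReal (f s)) ^ (k + 1) = (k + 1) * ∫⁻ s in Ioc 0 t,
      ENNReal.ofReal (f s) * (∫⁻ r in Ioc s t, ENNReal.ofReal (f r)) ^ k := by
  have e : ∀ {g : ℝ → ℝ}, Continuous g → ∀ {s}, s ≤ t → (∀ r ∈ Ioc s t, 0 ≤ g r) →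
      ∫⁻ r in Ioc s t, ENNReal.ofReal (g r) = ENNReal.ofReal (∫ r in s..t, g r) := by
    intro g hg s hs g0
    rw [intervalIntegral.integral_of_le hs, ofReal_integral_eq_lintegral_ofReal
      (hg.intervalIntegrable s t).1 ((ae_restrict_mem measurableSet_Ioc).mono g0)]
  have hd : ∀ s, HasDerivAt (fun s => ∫ r in s..t, f r) (-f s) s := fun s =>
    intervalIntegral.integral_hasDerivAt_left (hf.intervalIntegrable _ _)
      (hf.stronglyMeasurableAtFilter _ _) hf.continuousAt
  have hc : Continuous fun s => ∫ r in s..t, f r :=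
    continuous_iff_continuousAt.2 fun s => (hd s).continuousAt
  have p : ∀ s ≤ t, 0 ≤ ∫ r in s..t, f r := fun s hs =>
    intervalIntegral.integral_nonneg hs fun r _ => f0 r
  have key : ∫ s in (0 : ℝ)..t, (k + 1) * (f s * (∫ r in s..t, f r) ^ k) =
      (∫ r in (0 : ℝ)..t, f r) ^ (k + 1) := by
    rw [intervalIntegral.integral_eq_sub_of_hasDerivAt
      (f := fun s => -(∫ r in s..t, f r) ^ (k + 1)) (fun s _ => ?_)
      (Continuous.intervalIntegrable (by fun_prop) _ _)]
    · simp
    · refine ((hd s).pow (k + 1)).neg.congr_deriv ?_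
      simp only [Nat.add_sub_cancel]; push_cast; ring
  rw [e hf ht fun r _ => f0 r, ← ENNReal.ofReal_pow (p 0 ht), ← key,
    intervalIntegral.integral_const_mul, ENNReal.ofReal_mul (by positivity),
    ← e (by fun_prop) ht fun r hr => mul_nonneg (f0 r) (pow_nonneg (p r hr.2) _)]
  congr 1
  · rw [← Nat.cast_succ, ENNReal.ofReal_natCast, Nat.cast_succ]
  refine setLIntegral_congr_fun measurableSet_Ioc fun s hs => ?_
  rw [e hf hs.2 fun r _ => f0 r, ENNReal.ofReal_mul (f0 s), ENNReal.ofReal_pow (p s hs.2)]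

theorem split_in (hW : IsWiener W) (hD : IsOpen D) (hs : 0 < s) (hr : 0 < r) {F : Pr → ℝ≥0∞}
    (hF : Measurable F) : ∫⁻ γ, {γ : Pr | range γ ⊆ D}.indicator 1 γ * F (sft s γ)
      ∂Wb W (s + r) x y = ∫⁻ z, qk W D s x z *
        ∫⁻ γ, {γ : Pr | range γ ⊆ D}.indicator 1 γ * F γ ∂Wb W r z y := by
  have m := meas_in hD
  have := hW.split hs hr x y (H := fun p => {γ : Pr | range γ ⊆ D}.indicator 1 p.1 *
    ({γ : Pr | range γ ⊆ D}.indicator 1 p.2 * F p.2)) (by fun_prop)
  simp only [← mul_assoc, ← in_split] at this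
  rw [this]
  refine lintegral_congr fun z => ?_
  simp only [mul_assoc]
  rw [lintegral_lintegral_mul (by fun_prop) (by fun_prop),
    lintegral_indicator_one (measurableSet_range_open hD), qk]

theorem qk_add (hW : IsWiener W) (hD : IsOpen D) (hs : 0 < s) (hr : 0 < r) :
    qk W D (s + r) x y = ∫⁻ z, qk W D s x z * qk W D r z y := by
  simpa only [mul_one, lintegral_indicator_one (measurableSet_range_open hD), qk] using
    split_in hW hD hs hr (F := fun _ => 1) measurable_const

theorem qm_succ (hW : IsWiener W) (hD : IsOpen D) (hu : Continuous u) (u0 : ∀ z, 0 ≤ u z)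
    (ht : 0 < t) (k : ℕ) : qm W D (fun z => ENNReal.ofReal (u z)) (k + 1) t x y =
      (k + 1) * ∫⁻ s in Ioo 0 t, ∫⁻ z, qk W D s x z * (ENNReal.ofReal (u z) *
        qm W D (fun z => ENNReal.ofReal (u z)) k (t - s) z y) := by
  have := hW.prob
  have m := meas_in hD
  set U : ℂ → ℝ≥0∞ := fun z => ENNReal.ofReal (u z) with hU
  have mU : Measurable U := by fun_prop
  have e : ∀ γ : Pr, {γ : Pr | range γ ⊆ D}.indicator 1 γ * oc U t γ ^ (k + 1) =
      (k + 1) * ∫⁻ s in Ioo 0 t, {γ : Pr | range γ ⊆ D}.indicator 1 γ *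
        (U (sft s γ 0) * oc U (t - s) (sft s γ) ^ k) := fun γ => by
    rw [oc, pow_lint (f := fun s => u (γ s)) (by fun_prop) (fun _ => u0 _) ht.le,
      lintegral_const_mul _ (by fun_prop), mul_left_comm, ← restrict_Ioo_eq_restrict_Ioc]
    simp only [oc_sft, sft_apply, max_self, add_zero, hU]
  rw [qm, lintegral_congr e, lintegral_const_mul _ (by fun_prop),
    lintegral_lintegral_swap (by fun_prop)]
  congr 1
  refine setLIntegral_congr_fun measurableSet_Ioo fun s hs => ?_
  have k1 := split_in hW hD hs.1 (sub_pos.2 hs.2) (x := x) (y := y)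
    (F := fun γ => U (γ 0) * oc U (t - s) γ ^ k) (by fun_prop)
  rw [add_sub_cancel] at k1
  simp only [k1]
  refine lintegral_congr fun z => ?_
  congr 1
  rw [qm, ← lintegral_const_mul _ (by fun_prop), lintegral_Wb _ _ _ _ (by fun_prop),
    lintegral_Wb _ _ _ _ (by fun_prop)]
  simp only [br_of_nonpos le_rfl, hU, mul_left_comm (ENNReal.ofReal (u z))]

theorem conv {F : ℝ × ℝ → ℝ≥0∞} (hF : Measurable F) :
    ∫⁻ t in Ioi 0, ∫⁻ s in Ioo 0 t, F (s, t - s) = ∫⁻ s in Ioi 0, ∫⁻ r in Ioi 0, F (s, r) := by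
  have m : Measurable ((Ioi (0 : ℝ) ×ˢ Ioi (0 : ℝ)).indicator F) :=
    hF.indicator (measurableSet_Ioi.prod measurableSet_Ioi)
  calc _ = ∫⁻ t, ∫⁻ s, (Ioi 0 ×ˢ Ioi 0).indicator F (s, t - s) := by
        rw [← lintegral_indicator measurableSet_Ioi]
        refine lintegral_congr fun t => ?_
        by_cases h : 0 < t
        · rw [indicator_of_mem (mem_Ioi.2 h), ← lintegral_indicator measurableSet_Ioo]
          exact lintegral_congr fun s => by simp [indicator]
        · rw [indicator_of_notMem (mt mem_Ioi.1 h), eq_comm]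
          refine (lintegral_congr fun s => indicator_of_notMem ?_ _).trans lintegral_zero
          simp only [mem_prod, mem_Ioi, not_and, not_lt]
          intro; linarith
    _ = ∫⁻ s, ∫⁻ r, (Ioi 0 ×ˢ Ioi 0).indicator F (s, r) := by
        rw [lintegral_lintegral_swap (by fun_prop)]
        exact lintegral_congr fun s => lintegral_sub_right_eq_self
          (fun r => (Ioi 0 ×ˢ Ioi 0).indicator F (s, r)) s
    _ = _ := by
        rw [← lintegral_indicator measurableSet_Ioi]
        refine lintegral_congr fun s => ?_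
        by_cases h : 0 < s
        · rw [indicator_of_mem (mem_Ioi.2 h), ← lintegral_indicator measurableSet_Ioi]
          exact lintegral_congr fun s => by simp [indicator, h]
        · simp [h]

theorem meas_Gk (hW : IsWiener W) (hD : IsOpen D) : Measurable fun p : ℂ × ℂ => Gk W D p.1 p.2 := by
  have : Measurable fun a : (ℂ × ℂ) × ℝ => qk W D a.2 a.1.1 a.1.2 :=
    meas_qk hW hD measurable_snd (by fun_prop) (by fun_prop)
  exact this.lintegral_prod_right'

theorem Qm_eq (hW : IsWiener W) (hD : IsOpen D) (hu : Continuous u) (u0 : ∀ z, 0 ≤ u z) (k : ℕ)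
    (p : ℂ × ℂ) : (∫⁻ t in Ioi 0, qm W D (fun z => ENNReal.ofReal (u z)) k t p.1 p.2) *
      ENNReal.ofReal (u p.2) = k ! * pw (fun p => Gk W D p.1 p.2 * ENNReal.ofReal (u p.2)) k p := by
  induction k generalizing p with
  | zero => simp [qm_zero hD, pw, Gk]
  | succ k ih =>
    set U : ℂ → ℝ≥0∞ := fun z => ENNReal.ofReal (u z) with hU
    have mU : Measurable U := by fun_prop
    have m1 : Measurable fun a : ℝ × ℂ => qk W D a.1 p.1 a.2 :=
      meas_qk hW hD measurable_fst measurable_const measurable_snd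
    have m2 : Measurable fun a : ℝ × ℂ => qm W D U k a.1 a.2 p.2 :=
      meas_qm hW hD mU k measurable_fst measurable_snd measurable_const
    have m3 : Measurable fun a : (ℝ × ℝ) × ℂ =>
        qk W D a.1.1 p.1 a.2 * (U a.2 * qm W D U k a.1.2 a.2 p.2) :=
      (m1.comp (f := fun a : (ℝ × ℝ) × ℂ => (a.1.1, a.2)) (by fun_prop)).mul
        ((mU.comp measurable_snd).mul
          (m2.comp (f := fun a : (ℝ × ℝ) × ℂ => (a.1.2, a.2)) (by fun_prop)))
    have mG := meas_Gk hW hD
    have e1 := conv (m3.lintegral_prod_right' (ν := volume))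
    have e2 : ∀ s, ∫⁻ r in Ioi 0, ∫⁻ z, qk W D s p.1 z * (U z * qm W D U k r z p.2) =
        ∫⁻ z, qk W D s p.1 z * (U z * ∫⁻ r in Ioi 0, qm W D U k r z p.2) := fun s => by
      rw [lintegral_lintegral_swap (f := fun r z => qk W D s p.1 z * (U z * qm W D U k r z p.2))
        (m3.comp (f := fun a : ℝ × ℂ => ((s, a.1), a.2)) (by fun_prop)).aemeasurable]
      refine lintegral_congr fun z => ?_
      have : Measurable fun r => qm W D U k r z p.2 := m2.comp (f := fun r => (r, z)) (by fun_prop)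
      rw [lintegral_const_mul _ (this.const_mul _), lintegral_const_mul _ this]
    have m4 : Measurable fun z => ∫⁻ r in Ioi 0, qm W D U k r z p.2 := m2.lintegral_prod_left'
    simp only [e2] at e1
    rw [lintegral_lintegral_swap (μ := volume.restrict (Ioi 0)) (ν := volume) (m1.mul
      ((mU.mul m4).comp measurable_snd)).aemeasurable] at e1
    rw [setLIntegral_congr_fun measurableSet_Ioi fun t ht => qm_succ hW hD hu u0 ht k,
      lintegral_const_mul' _ _ (by simp), e1, mul_assoc, pw, cmp, Nat.factorial_succ, Nat.cast_mul,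
      Nat.cast_succ, mul_assoc, ← lintegral_mul_const' _ _ ENNReal.ofReal_ne_top,
      ← lintegral_const_mul' (k ! : ℝ≥0∞) _ (by simp)]
    congr 1
    refine lintegral_congr fun z => ?_
    have : Measurable fun s => qk W D s p.1 z := m1.comp (f := fun s => (s, z)) (by fun_prop)
    rw [lintegral_mul_const _ this, mul_left_comm (k ! : ℝ≥0∞), ← ih (z, p.2), Gk]
    ring

theorem oc_rot (hU : Measurable U) (ht : 0 < t) (a : S1) (γ : CL) :
    oc U t (unr t (rot a γ)) = oc U t (unr t γ) := by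
  rw [oc, oc, occ_unr ht _ hU, occ_unr ht _ hU]
  exact congrArg _ (lintegral_add_right_eq_self (fun b => U (γ b)) a)

theorem occL_eq (hu : Continuous u) (u0 : ∀ z, 0 ≤ u z) {q : ℝ × CL} (hq : 0 < q.1) :
    0 ≤ occL u q ∧
      ENNReal.ofReal (occL u q) = oc (fun z => ENNReal.ofReal (u z)) q.1 (unr q.1 q.2) := by
  refine ⟨mul_nonneg hq.le (integral_nonneg fun _ => u0 _), ?_⟩
  rw [oc, occ_unr hq _ (u := fun z => ENNReal.ofReal (u z)) (by fun_prop), occL,
    ENNReal.ofReal_mul hq.le, ofReal_integral_eq_lintegral_ofReal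
      (Continuous.integrable_of_hasCompactSupport (by fun_prop) (HasCompactSupport.of_compactSpace _))
      (Eventually.of_forall fun _ => u0 _)]

theorem loop_mom (hW : IsWiener W) (hu : Continuous u) (u0 : ∀ z, 0 ≤ u z) {S : Set (Set ℂ)}
    (hS : MeasurableSet {γ : Pr | range γ ∈ S}) (hS' : MeasurableSet {γ : CL | range γ ∈ S})
    (k : ℕ) :
    ∫⁻ q in {q : ℝ × CL | range q.2 ∈ S}, ENNReal.ofReal (occL u q) ^ (k + 1) ∂loopT W =
      ∫⁻ z, ENNReal.ofReal (u z) * ∫⁻ t in Ioi 0, ∫⁻ γ, {γ : Pr | range γ ∈ S}.indicator 1 γ *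
        oc (fun z => ENNReal.ofReal (u z)) t γ ^ k ∂Wb W t z z := by
  have := hW.prob
  have m : Measurable ({γ : Pr | range γ ∈ S}.indicator (1 : Pr → ℝ≥0∞)) :=
    measurable_one.indicator hS
  have mU : Measurable fun z => ENNReal.ofReal (u z) := by fun_prop
  have e : ∀ γ : Pr, {γ : Pr | range γ ∈ S}.indicator (1 : Pr → ℝ≥0∞) γ =
      S.indicator 1 (range γ) := fun γ => rfl
  rw [← hW.reroot_unr mU (Ψ := fun p => {γ : Pr | range γ ∈ S}.indicator 1 p.2 *
    oc (fun z => ENNReal.ofReal (u z)) p.1 p.2 ^ k) (by fun_prop) fun a t γ ht => by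
      simp only [oc_rot mU ht, e, range_unr ht, range_rot],
    ← lintegral_indicator (show MeasurableSet {q : ℝ × CL | range q.2 ∈ S} from measurable_snd hS')]
  refine lintegral_congr_ae (ae_pos.mono fun q hq => ?_)
  simp only [e, range_unr hq]
  by_cases h : range q.2 ∈ S
  · rw [indicator_of_mem h, indicator_of_mem (show q ∈ {q : ℝ × CL | range q.2 ∈ S} from h),
      (occL_eq hu u0 hq).2, Pi.one_apply, one_mul, pow_succ']
    rfl
  · simp [h]

theorem loop_trp (hW : IsWiener W) (hD : IsOpen D) (hu : Continuous u) (u0 : ∀ z, 0 ≤ u z)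
    (k : ℕ) : ∫⁻ q in {q : ℝ × CL | range q.2 ⊆ D}, ENNReal.ofReal (occL u q) ^ (k + 2) ∂loopT W =
      (k + 1)! * trp (fun p => Gk W D p.1 p.2 * ENNReal.ofReal (u p.2))
        (pw (fun p => Gk W D p.1 p.2 * ENNReal.ofReal (u p.2)) k) := by
  have m : Measurable fun p : ℂ × ℂ => Gk W D p.1 p.2 * ENNReal.ofReal (u p.2) :=
    (meas_Gk hW hD).mul (by fun_prop)
  refine (loop_mom hW hu u0 (S := {s | s ⊆ D}) (measurableSet_range_open hD)
    (measurableSet_range_open hD) (k + 1)).trans ?_
  rw [trp_eq m (measurable_pw m k), ← lintegral_const_mul' _ _ (by simp)]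
  exact lintegral_congr fun z => (mul_comm _ _).trans (Qm_eq hW hD hu u0 (k + 1) (z, z))

end

end Vale.Agent.P155.LJ
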